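import Vale.Agent.P092.H780.Gap5
import Vale.Agent.P092.CL.Lt
import Vale.Agent.P092.H15.ClHM

/-!
P092 (helper780), Team P, block [CL-GAP], part 6: the gaps in the letters of `CL.Lt`, every form with
`ε σ(s) ≠ s` for some `s` (so: `σ ≠ id`, any characteristic, any Witt index `≥ 2`; or `ε = -1`,
`2 ≠ 0`). This covers characteristic two, Witt index two, `σ ≠ id`.
-/

set_option linter.all false

namespace Vale.Agent.P092.H780

open Filter Topology Matrix
open Vale.Agent.P092.H303 (FormGroup Idx hyp torF torF_mem dgF)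
open Vale.Agent.P092.H714.Cl
open Vale.Agent.P092.H714.Sg (Fm)
open Vale.Agent.P092.H370.Fo (EP ei ei_mem)
open Vale.Agent.P092.H15 (HMG)
open Vale.Agent.P092.H933 (URep LeviGap fixedSub)
open Vale.Agent.P092.CL (ep em b1 b2)

section letters

variable {k : Type} [NontriviallyNormedField k] {ι : Type} [Fintype ι] [DecidableEq ι]
  {s : ℕ} {σ : k →+* k} {ε : k} {J₀ : Matrix ι ι k}

theorem hf_em_r (x : Idx (s + 2) ι → k) (i : Fin (s + 2)) :
    hf σ (hyp (s + 2) ε J₀) x (em k ι i) = x (.inl (.inl i)) := by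
  rw [hf_hyp]
  have h0 : (fun i' : ι => (em k ι i : Idx (s + 2) ι → k) (.inr i')) = 0 := by
    funext i'
    simp [CL.em]
  rw [h0, hf_zero_right, add_zero]
  have h1 : ∀ i' : Fin (s + 2), (em k ι i : Idx (s + 2) ι → k) (.inl (.inl i')) = 0 := fun i' => by
    simp [CL.em]
  have h2 : ∀ i' : Fin (s + 2), (em k ι i : Idx (s + 2) ι → k) (.inl (.inr i')) =
      if i' = i then 1 else 0 := fun i' => by
    by_cases h : i' = i
    · subst h
      simp [CL.em]
    · rw [if_neg h]
      refine Pi.single_eq_of_ne (fun hc => h ?_) _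
      exact Sum.inr_injective (Sum.inl_injective hc)
  simp only [h1, h2, map_zero, mul_zero, Finset.sum_const_zero, add_zero]
  rw [Finset.sum_eq_single i]
  · rw [if_pos rfl, map_one, mul_one]
  · intro j _ hj
    rw [if_neg hj, map_zero, mul_zero]
  · intro h
    exact absurd (Finset.mem_univ i) h

theorem hf_ep_r (x : Idx (s + 2) ι → k) (i : Fin (s + 2)) :
    hf σ (hyp (s + 2) ε J₀) x (ep k ι i) = ε * x (.inl (.inr i)) := by
  rw [hf_hyp]
  have h0 : (fun i' : ι => (ep k ι i : Idx (s + 2) ι → k) (.inr i')) = 0 := by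
    funext i'
    simp [ep]
  rw [h0, hf_zero_right, add_zero]
  have h1 : ∀ i' : Fin (s + 2), (ep k ι i : Idx (s + 2) ι → k) (.inl (.inr i')) = 0 := fun i' => by
    simp [ep]
  have h2 : ∀ i' : Fin (s + 2), (ep k ι i : Idx (s + 2) ι → k) (.inl (.inl i')) =
      if i' = i then 1 else 0 := fun i' => by
    by_cases h : i' = i
    · subst h
      simp [ep]
    · rw [if_neg h]
      refine Pi.single_eq_of_ne (fun hc => h ?_) _
      exact Sum.inl_injective (Sum.inl_injective hc)
  simp only [h1, h2, map_zero, mul_zero, Finset.sum_const_zero, zero_add]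
  congr 1
  rw [Finset.sum_eq_single i]
  · rw [if_pos rfl, map_one, mul_one]
  · intro j _ hj
    rw [if_neg hj, map_zero, mul_zero]
  · intro h
    exact absurd (Finset.mem_univ i) h

theorem ep_ll (i j : Fin (s + 2)) : (ep k ι i : Idx (s + 2) ι → k) (.inl (.inl j)) =
    if i = j then 1 else 0 := by
  by_cases h : i = j
  · subst h
    simp [ep]
  · rw [if_neg h]
    refine Pi.single_eq_of_ne (fun hc => h ?_) _
    exact (Sum.inl_injective (Sum.inl_injective hc)).symm

theorem em_ll (i j : Fin (s + 2)) : (em k ι i : Idx (s + 2) ι → k) (.inl (.inl j)) = 0 := by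
  simp [CL.em]

theorem em_lr (i j : Fin (s + 2)) : (em k ι i : Idx (s + 2) ι → k) (.inl (.inr j)) =
    if i = j then 1 else 0 := by
  by_cases h : i = j
  · subst h
    simp [CL.em]
  · rw [if_neg h]
    refine Pi.single_eq_of_ne (fun hc => h ?_) _
    exact (Sum.inr_injective (Sum.inl_injective hc)).symm

theorem norm_single_le (j : Idx (s + 2) ι) : ‖(Pi.single j 1 : Idx (s + 2) ι → k)‖ ≤ 1 := by
  refine (pi_norm_le_iff_of_nonneg zero_le_one).2 fun i => ?_
  by_cases h : i = j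
  · subst h; simp
  · rw [Pi.single_eq_of_ne h, norm_zero]; exact zero_le_one

/-- the two hyperbolic pairs of the letters -/
theorem hb_lt : HB σ (hyp (s + 2) ε J₀) (ep k ι (0 : Fin (s + 2))) (em k ι 0) (ep k ι 1)
    (em k ι 1) := by
  have h01 : (0 : Fin (s + 2)) ≠ 1 := by
    intro h
    have := congrArg Fin.val h
    simp at this
  refine ⟨CL.hf_ep 0 0, ?_, CL.hf_ep 1 1, ?_, CL.hf_ep 0 1, ?_, ?_, ?_, ?_, ?_,
    norm_single_le _, norm_single_le _, norm_single_le _, norm_single_le _⟩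
  · rw [hf_em_r, em_ll]
  · rw [hf_em_r, em_ll]
  · rw [hf_em_r, ep_ll, if_neg h01]
  · rw [hf_ep_r, em_lr, if_neg h01, mul_zero]
  · rw [hf_em_r, em_ll]
  · rw [hf_em_r, ep_ll, if_pos rfl]
  · rw [hf_em_r, ep_ll, if_pos rfl]

theorem single_torF {w : k} (hw : w ≠ 0) (l : Fin (s + 2) → ℤ) (j : Idx (s + 2) ι) :
    (Pi.single j 1 : Idx (s + 2) ι → k) ᵥ* (torF (s + 2) ι hw l).1 =
      dgF (s + 2) ι w l j • (Pi.single j 1 : Idx (s + 2) ι → k) := by
  change (Pi.single j 1 : Idx (s + 2) ι → k) ᵥ* diagonal (dgF (s + 2) ι w l) = _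
  funext i
  rw [vecMul_diagonal, Pi.smul_apply, smul_eq_mul, mul_comm]
  by_cases h : i = j
  · subst h; rfl
  · rw [Pi.single_eq_of_ne h, mul_zero, mul_zero]

/-- the isometry group contains the Eichler elements -/
theorem gh_form (hF : Frm σ ε (hyp (s + 2) ε J₀)) :
    GH σ ε (hyp (s + 2) ε J₀) (FormGroup σ (hyp (s + 2) ε J₀)) :=
  ⟨hF.fm, le_rfl, fun h => ei_mem hF.fm h⟩

variable [ProperSpace k]

/-- **[CL-GAP]**: both gaps of the letters `lt`, for every form with `ε σ(s₀) ≠ s₀` for some `s₀`. -/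
theorem gap_lt_of_hmg (hσn : ∀ x, ‖σ x‖ = ‖x‖) (hF : Frm σ ε (hyp (s + 2) ε J₀))
    (hm : HMG (FormGroup σ (hyp (s + 2) ε J₀))) (hs : ∃ s₀, ε * σ s₀ ≠ s₀) {w : k}
    (hw : w ≠ 0) (hσw : σ w = w) :
    LeviGap (b1 hw hσw : FormGroup σ (hyp (s + 2) ε J₀)) ∧
      LeviGap (b2 hw hσw : FormGroup σ (hyp (s + 2) ε J₀)) := by
  obtain ⟨s₀, hs₀⟩ := hs
  have hs' : ε * σ s₀ - s₀ ≠ 0 := sub_ne_zero.2 hs₀
  have hGc : IsClosed (FormGroup σ (hyp (s + 2) ε J₀) :
      Set (SpecialLinearGroup (Idx (s + 2) ι) k)) :=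
    H303.isClosed_formGroup (AddMonoidHomClass.isometry_of_norm σ hσn).continuous _
  have h01 : (1 : Fin (s + 2)) ≠ 0 := by
    intro h
    have := congrArg Fin.val h
    simp at this
  constructor
  · refine levi1U (gh_form hF) hGc hm hσn hb_lt hs' (a := b1 hw hσw) ?_ ?_
    · refine (single_torF hw _ _).trans ?_
      simp [dgF, Pi.single_eq_of_ne h01]
    · refine (single_torF hw _ _).trans ?_
      simp [dgF, Pi.single_eq_of_ne h01]
  · refine levi2U (gh_form hF) hGc hm hσn hb_lt hs' hw hσw (a := b2 hw hσw) ?_ ?_ ?_ ?_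
    · refine (single_torF hw _ _).trans ?_
      simp [dgF]
    · refine (single_torF hw _ _).trans ?_
      simp [dgF]
    · refine (single_torF hw _ _).trans ?_
      simp [dgF]
    · refine (single_torF hw _ _).trans ?_
      simp [dgF]

/-- **[CL-GAP]**, for the groups generated by the transvections: `σ ≠ id` in EVERY characteristic
(characteristic two, Witt index two included), or `ε ≠ 1`. -/
theorem gap_lt (hσn : ∀ x, ‖σ x‖ = ‖x‖) (hF : Frm σ ε (hyp (s + 2) ε J₀))
    (hG : FormGroup σ (hyp (s + 2) ε J₀) = GT σ ε (hyp (s + 2) ε J₀))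
    (hs : (∃ c, σ c ≠ c) ∨ ε ≠ 1) {w : k} (hw : w ≠ 0) (hσw : σ w = w) :
    LeviGap (b1 hw hσw : FormGroup σ (hyp (s + 2) ε J₀)) ∧
      LeviGap (b2 hw hσw : FormGroup σ (hyp (s + 2) ε J₀)) := by
  have hcl : IsClosed (FormGroup σ (hyp (s + 2) ε J₀) :
      Set (SpecialLinearGroup (Idx (s + 2) ι) k)) :=
    H303.isClosed_formGroup (AddMonoidHomClass.isometry_of_norm σ hσn).continuous _
  refine gap_lt_of_hmg hσn hF (H15.hmg_cl hσn hF hG.ge le_rfl hcl
    (hG.le.trans (Subgroup.le_topologicalClosure _))) ?_ hw hσw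
  by_contra hcon
  push Not at hcon
  have h1 : ε = 1 := by
    have := hcon 1
    rwa [map_one, mul_one] at this
  rcases hs with ⟨c, hc⟩ | h
  · apply hc
    have := hcon c
    rwa [h1, one_mul] at this
  · exact h h1

end letters

end Vale.Agent.P092.H780
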