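import Vale.Agent.P092.H956.SpG2

/-!
P092 (helper780), Team P, block [CL-GAP], part 1: abstract tools, valid in every characteristic.

* `rw8`: the random walk on `k²` by eight shears `± c ^ 20`, `± c ^ 21` contracts `‖v‖ ^ (-δ)`;
  no assumption on `2`;
* `gap8`: polynomial decay of coefficients along the words in eight elements which act on a plane
  like the eight shears gives a spectral gap for their average;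
* `lvl0`: decay from commutators with the powers of one element `z`, on vectors `z ζ - ζ`;
* `push_decay`: transfer of decay from a one-parameter family to an element which expands it.
-/

set_option linter.all false

namespace Vale.Agent.P092.H780

open Filter Topology Vale.Agent.P092.H933 Vale.Agent.P092.H956 Matrix

open scoped InnerProductSpace

section walk

variable {k : Type*} [NormedField k] {c : k}

/-- half of the random walk inequality -/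
theorem rw_aux8 (hc : 4 ≤ ‖c‖) {h : ℝ → ℝ} (hh : Pot ‖c‖ (51 / 50) h) (a b : k) (ha : a ≠ 0)
    (hab : ‖b‖ ≤ ‖a‖) :
    (h (max ‖a + c ^ 20 * b‖ ‖b‖) + h (max ‖a + -(c ^ 20) * b‖ ‖b‖) +
      (h (max ‖a + c ^ 21 * b‖ ‖b‖) + h (max ‖a + -(c ^ 21) * b‖ ‖b‖))) +
    (h (max ‖a‖ ‖b + c ^ 20 * a‖) + h (max ‖a‖ ‖b + -(c ^ 20) * a‖) +
      (h (max ‖a‖ ‖b + c ^ 21 * a‖) + h (max ‖a‖ ‖b + -(c ^ 21) * a‖))) ≤
      8 * (99 / 100) * h ‖a‖ := by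
  have hB : 0 < ‖c‖ := by linarith
  have hN : 0 < ‖a‖ := norm_pos_iff.2 ha
  have hhN := hh.pos _ hN
  have ht1 : ‖c ^ 20‖ = ‖c‖ ^ 20 := norm_pow _ _
  have ht1' : ‖-(c ^ 20)‖ = ‖c‖ ^ 20 := by rw [norm_neg, ht1]
  have ht2 : ‖c ^ 21‖ = ‖c‖ ^ 21 := norm_pow _ _
  have ht2' : ‖-(c ^ 21)‖ = ‖c‖ ^ 21 := by rw [norm_neg, ht2]
  have h2021 : ‖c‖ ^ 21 = ‖c‖ * ‖c‖ ^ 20 := by ring
  have hp20 : 0 < ‖c‖ ^ 20 := pow_pos hB 20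
  have hle : ‖c‖ ^ 20 ≤ ‖c‖ ^ 21 := by rw [h2021]; nlinarith
  -- the expanded directions
  have key1 : ∀ t : k, ‖c‖ ^ 20 ≤ ‖t‖ →
      h (max ‖a‖ ‖b + t * a‖) ≤ ((51 / 50 : ℝ)⁻¹) ^ 19 * h ‖a‖ := by
    intro t ht
    refine hh.pow' hB (by norm_num) 19 hN (le_trans ?_ (le_max_right _ _))
    have h1 := norm_sub_norm_le (t * a) (-b)
    rw [sub_neg_eq_add, norm_neg, norm_mul, add_comm (t * a)] at h1
    have h2 : (1 : ℝ) ≤ ‖c‖ ^ 19 := one_le_pow₀ (by linarith)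
    have h3 : ‖c‖ ^ 20 = ‖c‖ * ‖c‖ ^ 19 := by ring
    have h4 : ‖c‖ ^ 19 * ‖a‖ + ‖a‖ ≤ ‖c‖ ^ 20 * ‖a‖ := by
      rw [h3]; nlinarith [mul_pos (pow_pos hB 19) hN]
    have h5 : ‖c‖ ^ 20 * ‖a‖ ≤ ‖t‖ * ‖a‖ := by gcongr
    linarith
  -- the bad directions
  have key2 : ∀ t : k, ‖t‖ ≤ ‖c‖ ^ 21 → 0 < max ‖a + t * b‖ ‖b‖ ∧
      h (max ‖a + t * b‖ ‖b‖) ≤ (51 / 50 : ℝ) ^ 22 * h ‖a‖ := by
    intro t ht
    have h1 : ‖a‖ ≤ ‖a + t * b‖ + ‖c‖ ^ 21 * ‖b‖ := by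
      have := norm_sub_le (a + t * b) (t * b)
      rw [add_sub_cancel_right, norm_mul] at this
      have h5 : ‖t‖ * ‖b‖ ≤ ‖c‖ ^ 21 * ‖b‖ := by gcongr
      linarith
    have h2 : ‖a‖ ≤ ‖c‖ ^ 22 * max ‖a + t * b‖ ‖b‖ := by
      have m1 := le_max_left ‖a + t * b‖ ‖b‖
      have m2 := le_max_right ‖a + t * b‖ ‖b‖
      have m0 : 0 ≤ max ‖a + t * b‖ ‖b‖ := (norm_nonneg _).trans m1
      have h3 : ‖c‖ ^ 21 * ‖b‖ ≤ ‖c‖ ^ 21 * max ‖a + t * b‖ ‖b‖ := by gcongr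
      have h4 : (1 : ℝ) ≤ ‖c‖ ^ 21 := one_le_pow₀ (by linarith)
      have h5 : ‖c‖ ^ 22 = ‖c‖ * ‖c‖ ^ 21 := by ring
      have h6 : max ‖a + t * b‖ ‖b‖ ≤ ‖c‖ ^ 21 * max ‖a + t * b‖ ‖b‖ := by nlinarith
      rw [h5]
      nlinarith [mul_nonneg (pow_pos hB 21).le m0]
    have h7 : 0 < max ‖a + t * b‖ ‖b‖ := by
      by_contra hcon
      push Not at hcon
      have : ‖c‖ ^ 22 * max ‖a + t * b‖ ‖b‖ ≤ 0 :=
        mul_nonpos_of_nonneg_of_nonpos (by positivity) hcon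
      linarith
    exact ⟨h7, hh.pow hB (by norm_num) 22 h7 hN h2⟩
  -- one of two bad directions of different sizes is not too bad
  have key3 : ∀ t t' : k, ‖t‖ = ‖c‖ ^ 20 → ‖t'‖ = ‖c‖ ^ 21 →
      h (max ‖a + t * b‖ ‖b‖) ≤ (51 / 50 : ℝ) ^ 1 * h ‖a‖ ∨
      h (max ‖a + t' * b‖ ‖b‖) ≤ (51 / 50 : ℝ) ^ 1 * h ‖a‖ := by
    intro t t' ht ht'
    have h2 : ‖a‖ ≤ ‖c‖ ^ 1 * max ‖a + t * b‖ ‖b‖ ∨
        ‖a‖ ≤ ‖c‖ ^ 1 * max ‖a + t' * b‖ ‖b‖ := by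
      by_contra hcon
      push Not at hcon
      obtain ⟨g1, g2⟩ := hcon
      rw [pow_one] at g1 g2
      have g3 : ‖c‖ * ‖a + t * b‖ < ‖a‖ :=
        lt_of_le_of_lt (mul_le_mul_of_nonneg_left (le_max_left _ _) hB.le) g1
      have g4 : ‖c‖ * ‖a + t' * b‖ < ‖a‖ :=
        lt_of_le_of_lt (mul_le_mul_of_nonneg_left (le_max_left _ _) hB.le) g2
      have g5 : ‖t' * b‖ ≤ ‖a + t' * b‖ + ‖a‖ := by
        have := norm_sub_le (a + t' * b) a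
        rwa [add_sub_cancel_left] at this
      have g6 : ‖t' * b‖ - ‖t * b‖ ≤ ‖a + t' * b‖ + ‖a + t * b‖ := by
        have := norm_sub_le (a + t' * b) (a + t * b)
        have e : a + t' * b - (a + t * b) = t' * b - t * b := by ring
        rw [e] at this
        exact (norm_sub_norm_le _ _).trans this
      have g7 : ‖a‖ ≤ ‖a + t * b‖ + ‖t * b‖ := by
        have := norm_sub_le (a + t * b) (t * b)
        rwa [add_sub_cancel_right] at this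
      rw [norm_mul, norm_mul, ht, ht', h2021] at g6
      rw [norm_mul, ht] at g7
      have g8 : 4 * ‖a + t * b‖ ≤ ‖c‖ * ‖a + t * b‖ := by gcongr
      have g9 : 4 * ‖a + t' * b‖ ≤ ‖c‖ * ‖a + t' * b‖ := by gcongr
      have g10 : 4 * (‖c‖ ^ 20 * ‖b‖) ≤ ‖c‖ * (‖c‖ ^ 20 * ‖b‖) := by gcongr
      nlinarith
    rcases h2 with h2 | h2
    · exact Or.inl (hh.pow hB (by norm_num) 1 (key2 t (by rw [ht]; exact hle)).1 hN h2)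
    · exact Or.inr (hh.pow hB (by norm_num) 1 (key2 t' (by rw [ht'])).1 hN h2)
  have e1 := key1 _ ht1.ge
  have e2 := key1 _ ht1'.ge
  have e3 := key1 _ (ht2.ge.trans' hle)
  have e4 := key1 _ (ht2'.ge.trans' hle)
  have f1 := (key2 _ (ht1.le.trans hle)).2
  have f2 := (key2 _ (ht1'.le.trans hle)).2
  have f3 := (key2 _ ht2.le).2
  have f4 := (key2 _ ht2'.le).2
  have hnum : 4 * ((51 / 50 : ℝ)⁻¹) ^ 19 + 2 * (51 / 50) ^ 22 + 2 * (51 / 50) ^ 1 ≤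
      8 * (99 / 100) := by
    norm_num
  have hfin : (4 * ((51 / 50 : ℝ)⁻¹) ^ 19 + 2 * (51 / 50) ^ 22 + 2 * (51 / 50) ^ 1) * h ‖a‖ ≤
      8 * (99 / 100) * h ‖a‖ := by gcongr
  have hmain : (h (max ‖a + c ^ 20 * b‖ ‖b‖) ≤ (51 / 50 : ℝ) ^ 1 * h ‖a‖ ∧
        h (max ‖a + -(c ^ 20) * b‖ ‖b‖) ≤ (51 / 50 : ℝ) ^ 1 * h ‖a‖) ∨
      (h (max ‖a + c ^ 21 * b‖ ‖b‖) ≤ (51 / 50 : ℝ) ^ 1 * h ‖a‖ ∧
        h (max ‖a + -(c ^ 21) * b‖ ‖b‖) ≤ (51 / 50 : ℝ) ^ 1 * h ‖a‖) := by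
    rcases key3 _ _ ht1 ht2 with m1 | m1
    · rcases key3 _ _ ht1' ht2 with m2 | m2
      · exact Or.inl ⟨m1, m2⟩
      · rcases key3 _ _ ht1' ht2' with m3 | m3
        · exact Or.inl ⟨m1, m3⟩
        · exact Or.inr ⟨m2, m3⟩
    · rcases key3 _ _ ht1 ht2' with m2 | m2
      · rcases key3 _ _ ht1' ht2' with m3 | m3
        · exact Or.inl ⟨m2, m3⟩
        · exact Or.inr ⟨m1, m3⟩
      · exact Or.inr ⟨m1, m2⟩
  rcases hmain with ⟨m1, m2⟩ | ⟨m1, m2⟩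
  · linarith
  · linarith

/-- **The random walk inequality**, every characteristic. -/
theorem rw8 (hc : 4 ≤ ‖c‖) {h : ℝ → ℝ} (hh : Pot ‖c‖ (51 / 50) h) (a b : k)
    (hab : ¬ (a = 0 ∧ b = 0)) :
    (h (max ‖a + c ^ 20 * b‖ ‖b‖) + h (max ‖a + -(c ^ 20) * b‖ ‖b‖) +
      (h (max ‖a + c ^ 21 * b‖ ‖b‖) + h (max ‖a + -(c ^ 21) * b‖ ‖b‖))) +
    (h (max ‖a‖ ‖b + c ^ 20 * a‖) + h (max ‖a‖ ‖b + -(c ^ 20) * a‖) +
      (h (max ‖a‖ ‖b + c ^ 21 * a‖) + h (max ‖a‖ ‖b + -(c ^ 21) * a‖))) ≤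
      8 * (99 / 100) * h (max ‖a‖ ‖b‖) := by
  rcases le_total ‖b‖ ‖a‖ with h1 | h1
  · have ha : a ≠ 0 := by
      rintro rfl
      rw [norm_zero] at h1
      exact hab ⟨rfl, norm_le_zero_iff.1 h1⟩
    rw [max_eq_left h1]
    exact rw_aux8 hc hh a b ha h1
  · have hb : b ≠ 0 := by
      rintro rfl
      rw [norm_zero] at h1
      exact hab ⟨norm_le_zero_iff.1 h1, rfl⟩
    rw [max_eq_right h1]
    have := rw_aux8 hc hh b a hb h1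
    rw [max_comm ‖b + c ^ 20 * a‖, max_comm ‖b + -(c ^ 20) * a‖, max_comm ‖b + c ^ 21 * a‖,
      max_comm ‖b + -(c ^ 21) * a‖, max_comm ‖b‖, max_comm ‖b‖, max_comm ‖b‖, max_comm ‖b‖] at this
    linarith

end walk

section mat

variable {k : Type} [NormedField k]

/-- the eight shears -/
def sh8 (c : k) : Fin 8 → SpecialLinearGroup (Fin 2) k :=
  ![up (c ^ 20), up (-(c ^ 20)), up (c ^ 21), up (-(c ^ 21)),
    lo (c ^ 20), lo (-(c ^ 20)), lo (c ^ 21), lo (-(c ^ 21))]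

/-- the opposite shear -/
def op8 : Fin 8 → Fin 8 := ![1, 0, 3, 2, 5, 4, 7, 6]

theorem op8_op8 (i : Fin 8) : op8 (op8 i) = i := by fin_cases i <;> rfl

theorem rw_mat8 {c : k} (hc : 4 ≤ ‖c‖) {h : ℝ → ℝ} (hh : Pot ‖c‖ (51 / 50) h)
    (A : SpecialLinearGroup (Fin 2) k) :
    ∑ i, h (cl1 (sh8 c i * A)) ≤ 8 * (99 / 100) * h (cl1 A) := by
  rw [Fin.sum_univ_eight]
  have e0 : sh8 c 0 = up (c ^ 20) := rfl
  have e1 : sh8 c 1 = up (-(c ^ 20)) := rfl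
  have e2 : sh8 c 2 = up (c ^ 21) := rfl
  have e3 : sh8 c 3 = up (-(c ^ 21)) := rfl
  have e4 : sh8 c 4 = lo (c ^ 20) := rfl
  have e5 : sh8 c 5 = lo (-(c ^ 20)) := rfl
  have e6 : sh8 c 6 = lo (c ^ 21) := rfl
  have e7 : sh8 c 7 = lo (-(c ^ 21)) := rfl
  rw [e0, e1, e2, e3, e4, e5, e6, e7, cl1_up, cl1_up, cl1_up, cl1_up, cl1_lo, cl1_lo, cl1_lo,
    cl1_lo]
  have := rw8 hc hh (A.1 0 0) (A.1 1 0) (cl1_ne A)
  unfold cl1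
  linarith

end mat

section core

variable {E : Type*} [Group E] [TopologicalSpace E] {k : Type} [NormedField k]
  {𝓗 : Type*} [NormedAddCommGroup 𝓗] [InnerProductSpace ℂ 𝓗]
  {ρ : E →* (𝓗 →L[ℂ] 𝓗)}

/-- the average of eight elements -/
noncomputable def avg8 (W : Fin 8 → E) (ρ : E →* (𝓗 →L[ℂ] 𝓗)) : 𝓗 →L[ℂ] 𝓗 :=
  (8 : ℂ)⁻¹ • ∑ i, ρ (W i)

theorem avg8_apply (W : Fin 8 → E) (v : 𝓗) : avg8 W ρ v = (8 : ℂ)⁻¹ • ∑ i, ρ (W i) v := by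
  unfold avg8
  rw [ContinuousLinearMap.smul_apply, ContinuousLinearMap.sum_apply]

theorem avg8_symm (hρ : URep ρ) {W : Fin 8 → E} (hW : ∀ i, (W i)⁻¹ = W (op8 i)) (x y : 𝓗) :
    ⟪avg8 W ρ x, y⟫_ℂ = ⟪x, avg8 W ρ y⟫_ℂ := by
  have h4 : (starRingEnd ℂ) ((8 : ℂ)⁻¹) = (8 : ℂ)⁻¹ := by
    rw [map_inv₀, map_ofNat]
  rw [avg8_apply, avg8_apply, inner_smul_left, inner_smul_right, sum_inner, inner_sum, h4]
  congr 1
  have h5 : ∀ i, ⟪ρ (W i) x, y⟫_ℂ = ⟪x, ρ (W (op8 i)) y⟫_ℂ := fun i => by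
    rw [hρ.inner_left, hW]
  rw [Finset.sum_congr rfl fun i _ => h5 i]
  exact Equiv.sum_comp (⟨op8, op8, op8_op8, op8_op8⟩ : Fin 8 ≃ Fin 8)
    fun i => ⟪x, ρ (W i) y⟫_ℂ

/-- decay of the coefficient of one vector, along the pairs `(g, A)` of a relation -/
def Dec8 (P : E → SpecialLinearGroup (Fin 2) k → Prop) (ρ : E →* (𝓗 →L[ℂ] 𝓗)) (B : ℝ) (ξ : 𝓗) :
    Prop :=
  ∃ κ : ℝ, 0 < κ ∧ ∃ K : ℝ, ∀ g A, P g A → ∀ l : ℕ, B ^ l ≤ κ * nrm A →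
    ‖⟪ρ g ξ, ξ⟫_ℂ‖ ≤ K * (3 / 4) ^ l

theorem dec8_pot (hρ : URep ρ) {P : E → SpecialLinearGroup (Fin 2) k → Prop} {B : ℝ} (hB : 1 < B)
    {h : ℝ → ℝ} (hh : Pot B (51 / 50) h) {ξ : 𝓗} (hξ : Dec8 P ρ B ξ) :
    ∃ K : ℝ, 0 ≤ K ∧ ∀ g A, P g A → ‖⟪ρ g ξ, ξ⟫_ℂ‖ ≤ K * h (cl1 A) := by
  obtain ⟨κ, hκ, K, hK⟩ := hξ
  have h1 := hh.pos 1 one_pos
  have hB0 : 0 < B := by linarith
  obtain ⟨m, hm⟩ := pow_unbounded_of_one_lt κ⁻¹ hB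
  refine ⟨((|K| + ‖ξ‖ ^ 2) * (51 / 50) ^ (m + 1)) / h 1, by positivity, fun g A hg => ?_⟩
  have hpos := cl1_pos A
  have hhA := hh.pos _ hpos
  have hκm : 1 ≤ κ * B ^ m := by
    have h2 : κ * κ⁻¹ ≤ κ * B ^ m := mul_le_mul_of_nonneg_left hm.le hκ.le
    rwa [mul_inv_cancel₀ hκ.ne'] at h2
  have hnr : 0 ≤ nrm A := hpos.le.trans (cl1_le A)
  rw [div_mul_eq_mul_div, le_div_iff₀ h1]
  rcases le_or_gt 1 (κ * nrm A) with hG | hG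
  · obtain ⟨l, hl1, hl2⟩ := exists_nat_pow_near hG hB
    have e1 := hK g A hg l hl1
    have e2 : h 1 ≤ (51 / 50) ^ (l + 1 + m) * h (cl1 A) := by
      refine hh.pow hB0 (by norm_num) (l + 1 + m) one_pos hpos ?_
      rw [mul_one]
      refine (cl1_le A).trans ?_
      have h3 : nrm A ≤ (κ * B ^ m) * nrm A := by nlinarith
      calc nrm A ≤ (κ * B ^ m) * nrm A := h3
        _ = B ^ m * (κ * nrm A) := by ring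
        _ ≤ B ^ m * B ^ (l + 1) := by gcongr
        _ = B ^ (l + 1 + m) := by ring
    have e3 : ‖⟪ρ g ξ, ξ⟫_ℂ‖ ≤ |K| * (3 / 4) ^ l :=
      e1.trans (mul_le_mul_of_nonneg_right (le_abs_self K) (by positivity))
    calc ‖⟪ρ g ξ, ξ⟫_ℂ‖ * h 1 ≤ (|K| * (3 / 4) ^ l) * ((51 / 50) ^ (l + 1 + m) * h (cl1 A)) := by
          gcongr
      _ = |K| * (51 / 50) ^ (m + 1) * ((3 / 4) * (51 / 50)) ^ l * h (cl1 A) := by
          rw [mul_pow]; ring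
      _ ≤ |K| * (51 / 50) ^ (m + 1) * 1 * h (cl1 A) := by
          gcongr
          exact pow_le_one₀ (by norm_num) (by norm_num)
      _ ≤ ((|K| + ‖ξ‖ ^ 2) * (51 / 50) ^ (m + 1)) * h (cl1 A) := by
          rw [mul_one]
          gcongr
          linarith [sq_nonneg ‖ξ‖]
  · have e2 : h 1 ≤ (51 / 50) ^ m * h (cl1 A) := by
      refine hh.pow hB0 (by norm_num) m one_pos hpos ?_
      rw [mul_one]
      refine (cl1_le A).trans ?_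
      have h3 : nrm A ≤ (κ * B ^ m) * nrm A := by nlinarith
      calc nrm A ≤ (κ * B ^ m) * nrm A := h3
        _ = B ^ m * (κ * nrm A) := by ring
        _ ≤ B ^ m * 1 := by gcongr
        _ = B ^ m := mul_one _
    have e3 : ‖⟪ρ g ξ, ξ⟫_ℂ‖ ≤ ‖ξ‖ ^ 2 := by
      refine (norm_inner_le_norm _ _).trans ?_
      rw [hρ.iso, sq]
    have e4 : (51 / 50 : ℝ) ^ m ≤ (51 / 50) ^ (m + 1) :=
      pow_le_pow_right₀ (by norm_num) (Nat.le_succ m)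
    calc ‖⟪ρ g ξ, ξ⟫_ℂ‖ * h 1 ≤ ‖ξ‖ ^ 2 * ((51 / 50) ^ m * h (cl1 A)) := by gcongr
      _ ≤ ‖ξ‖ ^ 2 * ((51 / 50) ^ (m + 1) * h (cl1 A)) := by gcongr
      _ ≤ ((|K| + ‖ξ‖ ^ 2) * (51 / 50) ^ (m + 1)) * h (cl1 A) := by
          rw [← mul_assoc]
          gcongr
          linarith [abs_nonneg K]

/-- **Contraction of one good vector.** -/
theorem contr8 (hρ : URep ρ) {W : Fin 8 → E} (hW : ∀ i, (W i)⁻¹ = W (op8 i)) {c : k}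
    (hc : 4 ≤ ‖c‖) {P : E → SpecialLinearGroup (Fin 2) k → Prop} (hP1 : P 1 1)
    (hP : ∀ i g A, P g A → P (W i * g) (sh8 c i * A)) {ξ : 𝓗} (hξ : Dec8 P ρ ‖c‖ ξ) :
    ∃ C : ℝ, ∀ n : ℕ, ‖((avg8 W ρ) ^ n) ξ‖ ≤ C * (99 / 100) ^ n := by
  obtain ⟨h, hh⟩ := exists_pot (B := ‖c‖) (β := 51 / 50) (by linarith) (by norm_num)
  obtain ⟨K, hK0, hK⟩ := dec8_pot hρ (by linarith) hh hξ
  obtain ⟨T, hT⟩ : ∃ T, T = avg8 W ρ := ⟨_, rfl⟩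
  have hsym : ∀ x y, ⟪T x, y⟫_ℂ = ⟪x, T y⟫_ℂ := by
    rw [hT]; exact avg8_symm hρ hW
  have hstep : ∀ n g A, P g A → ‖⟪(T ^ n) (ρ g ξ), ξ⟫_ℂ‖ ≤ K * (99 / 100) ^ n * h (cl1 A) := by
    intro n
    induction n with
    | zero =>
      intro g A hg
      rw [pow_zero, pow_zero, mul_one]
      exact hK g A hg
    | succ n ih =>
      intro g A hg
      have e1 : (T ^ (n + 1)) (ρ g ξ) =
          (8 : ℂ)⁻¹ • ∑ i, (T ^ n) (ρ (W i * g) ξ) := by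
        rw [pow_succ]
        show (T ^ n) (T (ρ g ξ)) = _
        rw [hT, avg8_apply, map_smul, map_sum]
        simp only [URep.mul_apply]
      rw [e1, inner_smul_left, sum_inner, norm_mul, RCLike.norm_conj]
      have h4 : ‖(8 : ℂ)⁻¹‖ = 8⁻¹ := by rw [norm_inv]; simp
      rw [h4]
      have e2 : ‖∑ i, ⟪(T ^ n) (ρ (W i * g) ξ), ξ⟫_ℂ‖ ≤
          K * (99 / 100) ^ n * (8 * (99 / 100) * h (cl1 A)) := by
        refine (norm_sum_le _ _).trans ((Finset.sum_le_sum fun i _ =>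
          ih _ _ (hP i g A hg)).trans ?_)
        rw [← Finset.mul_sum]
        exact mul_le_mul_of_nonneg_left (rw_mat8 hc hh A) (by positivity)
      calc 8⁻¹ * _ ≤ 8⁻¹ * (K * (99 / 100) ^ n * (8 * (99 / 100) * h (cl1 A))) := by gcongr
        _ = _ := by rw [pow_succ]; ring
  have hsymn : ∀ n x y, ⟪(T ^ n) x, y⟫_ℂ = ⟪x, (T ^ n) y⟫_ℂ := by
    intro n
    induction n with
    | zero => intro x y; rw [pow_zero]; rfl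
    | succ n ih =>
      intro x y
      have e1 : (T ^ (n + 1)) x = T ((T ^ n) x) := by rw [pow_succ']; rfl
      have e2 : (T ^ (n + 1)) y = (T ^ n) (T y) := by rw [pow_succ]; rfl
      rw [e1, e2, hsym, ih]
  refine ⟨Real.sqrt (K * h 1), fun n => ?_⟩
  rw [← hT]
  have h1 := hh.pos 1 one_pos
  refine abs_le_of_sq_le_sq' ?_ (by positivity) |>.2
  have e1 : ‖(T ^ n) ξ‖ ^ 2 = ‖⟪(T ^ (2 * n)) (ρ 1 ξ), ξ⟫_ℂ‖ := by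
    rw [URep.one_apply, two_mul, pow_add]
    show _ = ‖⟪(T ^ n) ((T ^ n) ξ), ξ⟫_ℂ‖
    rw [hsymn, inner_self_eq_norm_sq_to_K, norm_pow]
    simp
  rw [e1, mul_pow, Real.sq_sqrt (by positivity)]
  have e2 := hstep (2 * n) 1 1 hP1
  rw [cl1_one] at e2
  refine e2.trans (le_of_eq ?_)
  rw [← pow_mul, mul_comm 2 n]
  ring

/-- **The gap from decay of coefficients on a total set**, every characteristic. -/
theorem gap8 (hρ : URep ρ) {W : Fin 8 → E} (hW : ∀ i, (W i)⁻¹ = W (op8 i)) {c : k}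
    (hc : 4 ≤ ‖c‖) {P : E → SpecialLinearGroup (Fin 2) k → Prop} (hP1 : P 1 1)
    (hP : ∀ i g A, P g A → P (W i * g) (sh8 c i * A)) {D : Set 𝓗}
    (hD : ∀ ξ ∈ D, Dec8 P ρ ‖c‖ ξ) {v : 𝓗}
    (hv : v ∈ (Submodule.span ℂ D).topologicalClosure) :
    ‖avg8 W ρ v‖ ≤ (99 / 100) * ‖v‖ := by
  obtain ⟨T, hT⟩ : ∃ T, T = avg8 W ρ := ⟨_, rfl⟩
  rw [← hT]
  have hsym : ∀ x y, ⟪T x, y⟫_ℂ = ⟪x, T y⟫_ℂ := by
    rw [hT]; exact avg8_symm hρ hW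
  let S : Submodule ℂ 𝓗 :=
    { carrier := {ξ | ∃ C : ℝ, ∀ n : ℕ, ‖(T ^ n) ξ‖ ≤ C * (99 / 100) ^ n}
      add_mem' := by
        rintro a b ⟨C, hC⟩ ⟨C', hC'⟩
        refine ⟨C + C', fun n => ?_⟩
        rw [map_add, add_mul]
        exact (norm_add_le _ _).trans (add_le_add (hC n) (hC' n))
      zero_mem' := ⟨0, fun n => by simp⟩
      smul_mem' := by
        rintro a x ⟨C, hC⟩
        refine ⟨‖a‖ * C, fun n => ?_⟩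
        rw [map_smul, norm_smul, mul_assoc]
        exact mul_le_mul_of_nonneg_left (hC n) (norm_nonneg _) }
  have hS : Submodule.span ℂ D ≤ S := by
    rw [Submodule.span_le]
    intro ξ hξ
    show ∃ C : ℝ, ∀ n : ℕ, ‖(T ^ n) ξ‖ ≤ C * (99 / 100) ^ n
    rw [hT]
    exact contr8 hρ hW hc hP1 hP (hD ξ hξ)
  have hcl : IsClosed {x : 𝓗 | ‖T x‖ ≤ (99 / 100) * ‖x‖} :=
    isClosed_le T.continuous.norm (continuous_const.mul continuous_norm)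
  have hsub : (Submodule.span ℂ D : Set 𝓗) ⊆ {x : 𝓗 | ‖T x‖ ≤ (99 / 100) * ‖x‖} := by
    intro x hx
    obtain ⟨C, hC⟩ := hS hx
    exact iter_le hsym (by norm_num) hC
  have := closure_minimal hsub hcl
  exact this (by rw [← Submodule.topologicalClosure_coe]; exact hv)

end core

section hil

variable {E : Type*} [Group E] [TopologicalSpace E] {𝓗 : Type*} [NormedAddCommGroup 𝓗]
  [InnerProductSpace ℂ 𝓗] {ρ : E →* (𝓗 →L[ℂ] 𝓗)}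

/-- the commutator step -/
theorem comm_st (hρ : URep ρ) {V Y Z : E} (h : V * Y = Y * (V * Z)) (ξ : 𝓗) :
    ‖⟪ρ V ξ, ξ⟫_ℂ - ⟪ρ V (ρ Z ξ), ξ⟫_ℂ‖ ≤ 2 * ‖ρ Y ξ - ξ‖ * ‖ξ‖ := by
  have e1 : ⟪ρ V (ρ Z ξ), ξ⟫_ℂ = ⟪ρ V (ρ Y ξ), ρ Y ξ⟫_ℂ := by
    rw [← URep.mul_apply V Y, h, URep.mul_apply Y, hρ.inner_map, URep.mul_apply]
  have e2 : ⟪ρ V ξ, ξ⟫_ℂ - ⟪ρ V (ρ Y ξ), ρ Y ξ⟫_ℂ =
      ⟪ρ V (ξ - ρ Y ξ), ξ⟫_ℂ + ⟪ρ V (ρ Y ξ), ξ - ρ Y ξ⟫_ℂ := by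
    rw [map_sub, inner_sub_left, inner_sub_right]; ring
  rw [e1, e2]
  have h1 := norm_inner_le_norm (𝕜 := ℂ) (ρ V (ξ - ρ Y ξ)) ξ
  have h2 := norm_inner_le_norm (𝕜 := ℂ) (ρ V (ρ Y ξ)) (ξ - ρ Y ξ)
  rw [hρ.iso, norm_sub_rev] at h1
  rw [hρ.iso, hρ.iso, norm_sub_rev] at h2
  refine (norm_add_le _ _).trans ?_
  linarith

/-- **Level 0**: `V` commutes with `z ^ j` up to small elements, `ξ = z ζ - ζ`. -/
theorem lvl0 (hρ : URep ρ) {z V : E} {ζ ξ : 𝓗} (hξ : ξ = ρ z ζ - ζ) {D : ℝ} (hD : 0 ≤ D) {n : ℕ}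
    (h : ∀ j : ℕ, j < 2 ^ n → ∃ Y, V * Y = Y * (V * z ^ j) ∧ ‖ρ Y ξ - ξ‖ ≤ D * (3 / 4) ^ n) :
    ‖⟪ρ V ξ, ξ⟫_ℂ‖ ≤ (2 * ‖ζ‖ * ‖ξ‖ + 2 * D * ‖ξ‖) * (3 / 4) ^ n := by
  have hstep : ∀ j : ℕ, j < 2 ^ n → ‖⟪ρ V ξ, ξ⟫_ℂ - ⟪ρ V (ρ (z ^ j) ξ), ξ⟫_ℂ‖ ≤
      2 * D * ‖ξ‖ * (3 / 4) ^ n := by
    intro j hj
    obtain ⟨Y, hY, hY'⟩ := h j hj
    refine (comm_st hρ hY ξ).trans ?_
    calc 2 * ‖ρ Y ξ - ξ‖ * ‖ξ‖ ≤ 2 * (D * (3 / 4) ^ n) * ‖ξ‖ := by gcongr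
      _ = _ := by ring
  -- telescoping
  have htel : ∑ j ∈ Finset.range (2 ^ n), ρ (z ^ j) ξ = ρ (z ^ (2 ^ n)) ζ - ζ := by
    have e1 : ∀ j : ℕ, ρ (z ^ j) ξ = ρ (z ^ (j + 1)) ζ - ρ (z ^ j) ζ := by
      intro j
      rw [hξ, map_sub, ← URep.mul_apply, ← pow_succ]
    rw [Finset.sum_congr rfl fun j _ => e1 j,
      Finset.sum_range_sub (fun j : ℕ => ρ (z ^ j) ζ)]
    rw [pow_zero, URep.one_apply]
  have hM : (0 : ℝ) < 2 ^ n := by positivity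
  have hsum : ((2 : ℂ) ^ n) * ⟪ρ V ξ, ξ⟫_ℂ =
      ∑ j ∈ Finset.range (2 ^ n), (⟪ρ V ξ, ξ⟫_ℂ - ⟪ρ V (ρ (z ^ j) ξ), ξ⟫_ℂ) +
        ⟪ρ V (ρ (z ^ (2 ^ n)) ζ - ζ), ξ⟫_ℂ := by
    rw [← htel, map_sum, sum_inner, Finset.sum_sub_distrib, sub_add_cancel, Finset.sum_const,
      Finset.card_range, nsmul_eq_mul]
    push_cast
    rfl
  have hfin : 2 ^ n * ‖⟪ρ V ξ, ξ⟫_ℂ‖ ≤
      2 ^ n * (2 * D * ‖ξ‖ * (3 / 4) ^ n) + 2 * ‖ζ‖ * ‖ξ‖ := by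
    have e2 : 2 ^ n * ‖⟪ρ V ξ, ξ⟫_ℂ‖ = ‖((2 : ℂ) ^ n) * ⟪ρ V ξ, ξ⟫_ℂ‖ := by
      rw [norm_mul, norm_pow]; simp
    rw [e2, hsum]
    refine (norm_add_le _ _).trans (add_le_add ?_ ?_)
    · refine (norm_sum_le _ _).trans ?_
      refine (Finset.sum_le_sum fun j hj => hstep j (Finset.mem_range.1 hj)).trans (le_of_eq ?_)
      rw [Finset.sum_const, Finset.card_range, nsmul_eq_mul]
      push_cast
      rfl
    · refine (norm_inner_le_norm _ _).trans ?_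
      rw [hρ.iso]
      have h6 := norm_sub_le (ρ (z ^ (2 ^ n)) ζ) ζ
      rw [hρ.iso] at h6
      have := norm_nonneg ξ
      nlinarith
  have hq2 : (1 : ℝ) ≤ 2 ^ n * (3 / 4) ^ n := by
    rw [← mul_pow]; exact one_le_pow₀ (by norm_num)
  have h9 : 2 ^ n * ‖⟪ρ V ξ, ξ⟫_ℂ‖ ≤
      2 ^ n * ((2 * ‖ζ‖ * ‖ξ‖ + 2 * D * ‖ξ‖) * (3 / 4) ^ n) := by
    refine hfin.trans ?_
    have h11 : 2 * ‖ζ‖ * ‖ξ‖ * 1 ≤ 2 * ‖ζ‖ * ‖ξ‖ * (2 ^ n * (3 / 4) ^ n) := by gcongr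
    nlinarith
  exact le_of_mul_le_mul_left h9 hM

/-- `2 ^ n / Γ` is small when `Γ ≥ ‖c‖ ^ n` -/
theorem two_pow_div {x Γ : ℝ} (hx : 4 ≤ x) {n : ℕ} (hn : x ^ n ≤ Γ) :
    (2 : ℝ) ^ n / Γ ≤ (3 / 4) ^ n := by
  have hpos : 0 < Γ := lt_of_lt_of_le (pow_pos (by linarith) n) hn
  rw [div_le_iff₀ hpos]
  calc (2 : ℝ) ^ n ≤ (3 / 4 * x) ^ n := pow_le_pow_left₀ (by norm_num) (by linarith) n
    _ = (3 / 4) ^ n * x ^ n := mul_pow _ _ _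
    _ ≤ _ := by gcongr

/-- **Level 1**: transfer of decay from a one-parameter family `N` to an element `g` with
`U y * g = g * N y`, `U` slow. -/
theorem push_decay {k' : Type*} [NormedField k'] {c : k'} (hc : 4 ≤ ‖c‖) (hρ : URep ρ) {ξ : 𝓗}
    {g : E} {N U : k' → E} (hN : ∀ y y', N y = N y' * N (y - y')) (hU0 : N 0 = 1)
    (hg : ∀ y, U y * g = g * N y) {C : ℝ} (hC0 : 0 ≤ C) (hU : ∀ y, ‖ρ (U y) ξ - ξ‖ ≤ C * ‖y‖)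
    {Γ K : ℝ} (hK0 : 0 ≤ K)
    (hK : ∀ (n : ℕ) (y : k'), ‖c‖ ^ n ≤ ‖y‖ * Γ → ‖⟪ρ (N y) ξ, ξ⟫_ℂ‖ ≤ K * (3 / 4) ^ n) (l : ℕ)
    (hl : (‖c‖ ^ 4) ^ l ≤ Γ) :
    ‖⟪ρ g ξ, ξ⟫_ℂ‖ ≤ (‖ξ‖ * Real.sqrt (‖ξ‖ ^ 2 + K) + C * ‖ξ‖) * (3 / 4) ^ l := by
  have hw0 : ρ (N 0) ξ = ξ := by rw [hU0, URep.one_apply]
  have key := transfer (c := c) hc (C := C * ‖ξ‖) (K := K) (R := ‖ξ‖)
    (mul_nonneg hC0 (norm_nonneg ξ)) hK0
    (η := ρ g⁻¹ ξ) (w := fun y => ρ (N y) ξ) (hρ.iso _ _).le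
    (fun y => (hρ.iso _ _).le) (fun y => ?_) (Γ := Γ) (fun n y y' hne hn => ?_) l hl
  · simp only [hw0] at key
    have e : ⟪ρ g⁻¹ ξ, ξ⟫_ℂ = ⟪ξ, ρ g ξ⟫_ℂ := by rw [hρ.inner_left, inv_inv]
    rw [e, norm_inner_symm] at key
    exact key
  · simp only [hw0]
    have e1 : ⟪ρ g⁻¹ ξ, ξ⟫_ℂ - ⟪ρ g⁻¹ ξ, ρ (N y) ξ⟫_ℂ = ⟪ξ - ρ (U y)⁻¹ ξ, ρ g ξ⟫_ℂ := by
      rw [hρ.inner_left, hρ.inner_left, inv_inv, ← URep.mul_apply, ← hg, URep.mul_apply,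
        inner_sub_left, hρ.inner_left (U y)⁻¹, inv_inv]
    rw [e1]
    refine (norm_inner_le_norm _ _).trans ?_
    rw [hρ.iso]
    have e2 : ‖ξ - ρ (U y)⁻¹ ξ‖ = ‖ρ (U y) ξ - ξ‖ := by
      rw [← hρ.iso (U y), map_sub, ← URep.mul_apply, mul_inv_cancel, URep.one_apply]
    have e4 := hU y
    rw [← e2] at e4
    calc ‖ξ - ρ (U y)⁻¹ ξ‖ * ‖ξ‖ ≤ (C * ‖y‖) * ‖ξ‖ := by gcongr
      _ = C * ‖ξ‖ * ‖y‖ := by ring
  · beta_reduce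
    have e3 : ⟪ρ (N y) ξ, ρ (N y') ξ⟫_ℂ = ⟪ρ (N (y - y')) ξ, ξ⟫_ℂ := by
      rw [hN y y', URep.mul_apply, hρ.inner_map]
    rw [e3]
    exact hK n (y - y') hn

end hil

end Vale.Agent.P092.H780
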