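import Vale.Agent.P092.H370.Fo1
import Vale.Agent.P092.H956.SpG3

/-!
P092 (helper780), Team P, block [CL-GAP], part 2: the relations of the Eichler elements `ei u v c`
of a form of any kind, in a group `G` between the group of these elements and the isometry group.
-/

set_option linter.all false

namespace Vale.Agent.P092.H780

open Matrix
open Vale.Agent.P092.H303 (FormGroup)
open Vale.Agent.P092.H714.Cl
open Vale.Agent.P092.H714.Sg (Fm)
open Vale.Agent.P092.H370.Fo (EP ei eim vecMul_ei EU EU_le ei_mem ei_mem_EU)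
open Vale.Agent.P092.H956 (pn pn_nonneg le_pn pn_le)

section alg

variable {n : Type} [Fintype n] [DecidableEq n] {k : Type} [Field k]
  {σ : k →+* k} {ε : k} {J : Matrix n n k}

theorem ep_add (hF : Fm σ ε J) {u v v' : n → k} {c c' : k} (h : EP σ ε J u v c)
    (h' : EP σ ε J u v' c') : EP σ ε J u (v + v') (c + c' - hf σ J v v') where
  uu := h.uu
  vu := by rw [hf_add_left, h.vu, h'.vu, add_zero]
  vv := by
    rw [hf_add_left, hf_add_right, hf_add_right, map_sub, map_add]
    linear_combination h.vv + h'.vv + hF.herm v v'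

theorem ei_law (hF : Fm σ ε J) {u v v' : n → k} {c c' : k} (h : EP σ ε J u v c)
    (h' : EP σ ε J u v' c') :
    ei σ ε J u v c * ei σ ε J u v' c' = ei σ ε J u (v + v') (c + c' - hf σ J v v') := by
  refine ext_vecMul fun x => ?_
  rw [vecMul_mul', vecMul_ei hF h', vecMul_ei hF (ep_add hF h h'), vecMul_ei hF h]
  simp only [sub_eq_add_neg, ← neg_smul, hf_add_left, hf_smul_left, h.vu, h.uu,
    hF.symm0 h'.vu, hf_add_right, mul_zero, add_zero, zero_add]
  module

theorem ei_zero (hF : Fm σ ε J) {u : n → k} (hu : hf σ J u u = 0) : ei σ ε J u 0 0 = 1 := by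
  have h : EP σ ε J u 0 0 := ⟨hu, hf_zero_left _ _ _, by rw [hf_zero_left, map_zero]; ring⟩
  refine ext_vecMul fun x => ?_
  rw [vecMul_ei hF h, vecMul_one', hf_zero_right]
  module

theorem ep_act {g : SpecialLinearGroup n k} (hg : g ∈ FormGroup σ J) {u v : n → k} {c : k}
    (h : EP σ ε J u v c) : EP σ ε J (u ᵥ* g.1) (v ᵥ* g.1) c where
  uu := by rw [mem_formGroup.1 hg, h.uu]
  vu := by rw [mem_formGroup.1 hg, h.vu]
  vv := by rw [mem_formGroup.1 hg, h.vv]

theorem ei_conj (hF : Fm σ ε J) {g : SpecialLinearGroup n k} (hg : g ∈ FormGroup σ J)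
    {u v : n → k} {c : k} (h : EP σ ε J u v c) :
    ei σ ε J u v c * g = g * ei σ ε J (u ᵥ* g.1) (v ᵥ* g.1) c := by
  refine ext_vecMul fun x => ?_
  rw [vecMul_mul', vecMul_mul', vecMul_ei hF h, vecMul_ei hF (ep_act hg h),
    mem_formGroup.1 hg, mem_formGroup.1 hg]
  simp only [sub_eq_add_neg, ← neg_smul, add_vecMul, smul_vecMul]

/-- the scaling of the isotropic vector -/
theorem ei_smul (hF : Fm σ ε J) {u v : n → k} {c a : k} (h : EP σ ε J (a • u) v c)
    (h' : EP σ ε J u (σ a • v) (a * σ a * c)) :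
    ei σ ε J (a • u) v c = ei σ ε J u (σ a • v) (a * σ a * c) := by
  refine ext_vecMul fun x => ?_
  rw [vecMul_ei hF h, vecMul_ei hF h', hf_smul_right, hf_smul_right, hF.inv]
  module

theorem ep_z (hF : Fm σ ε J) {p : n → k} (hp : hf σ J p p = 0) (s : k) :
    EP σ ε J p 0 (ε * σ s - s) where
  uu := hp
  vu := hf_zero_left _ _ _
  vv := by
    rw [hf_zero_left, map_sub, map_mul, hF.seps, hF.inv]
    linear_combination s * hF.eps

/-- **the commutator in the unipotent radical of a point** -/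
theorem ei_comm1 (hF : Fm σ ε J) {p v w : n → k} {c c' : k} (h : EP σ ε J p v c)
    (h' : EP σ ε J p w c') :
    ei σ ε J p v c * ei σ ε J p w c' = ei σ ε J p w c' * (ei σ ε J p v c *
      ei σ ε J p 0 (ε * σ (hf σ J v w) - hf σ J v w)) := by
  rw [ei_law hF h h', ei_law hF h (ep_z hF h.uu _), ei_law hF h' (ep_add hF h (ep_z hF h.uu _))]
  congr 1
  · rw [add_zero, add_comm]
  · rw [hf_zero_right, add_zero, hF.herm v w]
    ring

/-- **the commutator in the unipotent radical of a plane**, orthogonal groups -/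
theorem ei_comm2 (hF : Fm (RingHom.id k) 1 J) {a b v w : n → k} {c c' α β α' β' : k}
    (haa : hf (RingHom.id k) J a a = 0) (hbb : hf (RingHom.id k) J b b = 0)
    (hab : hf (RingHom.id k) J a b = 0)
    (hva : hf (RingHom.id k) J v a = 0) (hvb : hf (RingHom.id k) J v b = 0)
    (hwa : hf (RingHom.id k) J w a = 0) (hwb : hf (RingHom.id k) J w b = 0)
    (h : EP (RingHom.id k) 1 J (α • a + β • b) v c)
    (h' : EP (RingHom.id k) 1 J (α' • a + β' • b) w c') :
    ei (RingHom.id k) 1 J (α • a + β • b) v c * ei (RingHom.id k) 1 J (α' • a + β' • b) w c' =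
      ei (RingHom.id k) 1 J (α' • a + β' • b) w c' *
        (ei (RingHom.id k) 1 J (α • a + β • b) v c *
          ei (RingHom.id k) 1 J b (((β' * α - α' * β) * hf (RingHom.id k) J v w) • a) 0) := by
  have hba := hF.symm0 hab
  have hav := hF.symm0 hva
  have hbv := hF.symm0 hvb
  have haw := hF.symm0 hwa
  have hbw := hF.symm0 hwb
  have hwv : hf (RingHom.id k) J w v = hf (RingHom.id k) J v w := by
    rw [hF.herm v w, one_mul]; rfl
  have hz : EP (RingHom.id k) 1 J b (((β' * α - α' * β) * hf (RingHom.id k) J v w) • a) 0 :=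
    ⟨hbb, by rw [hf_smul_left, hab, mul_zero], by
      rw [hf_smul_left, hf_smul_right, haa, map_zero]; ring⟩
  refine ext_vecMul fun x => ?_
  rw [vecMul_mul', vecMul_mul', vecMul_mul', vecMul_ei hF hz, vecMul_ei hF h', vecMul_ei hF h,
    vecMul_ei hF h', vecMul_ei hF h]
  simp only [sub_eq_add_neg, ← neg_smul, hf_add_left, hf_smul_left, hf_add_right, hf_smul_right,
    haa, hbb, hab, hba, hva, hvb, hwa, hwb, hav, hbv, haw, hbw, hwv, mul_zero, add_zero, zero_add,
    RingHom.id_apply, one_mul, zero_mul, neg_zero, zero_smul]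
  module

end alg

/-- a group of isometries which contains the Eichler elements -/
structure GH {n : Type} [Fintype n] [DecidableEq n] {k : Type} [Field k] (σ : k →+* k) (ε : k)
    (J : Matrix n n k) (G : Subgroup (SpecialLinearGroup n k)) : Prop where
  fm : Fm σ ε J
  le : G ≤ FormGroup σ J
  mem : ∀ {u v : n → k} {c : k}, EP σ ε J u v c → ei σ ε J u v c ∈ G

section grp

variable {n : Type} [Fintype n] [DecidableEq n] {k : Type} [Field k]
  {σ : k →+* k} {ε : k} {J : Matrix n n k} {G : Subgroup (SpecialLinearGroup n k)}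

open Classical in
/-- the Eichler element, in `G` -/
noncomputable def GH.el (hG : GH σ ε J G) (u v : n → k) (c : k) : G :=
  if h : EP σ ε J u v c then ⟨ei σ ε J u v c, hG.mem h⟩ else 1

variable (hG : GH σ ε J G)

theorem GH.val {u v : n → k} {c : k} (h : EP σ ε J u v c) :
    (hG.el u v c).1 = ei σ ε J u v c := by
  unfold GH.el
  rw [dif_pos h]

theorem GH.act {u v : n → k} {c : k} (h : EP σ ε J u v c) (x : n → k) :
    x ᵥ* (hG.el u v c).1.1 =
      x + hf σ J x u • v - (ε * hf σ J x v) • u + (ε * c * hf σ J x u) • u := by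
  rw [hG.val h, vecMul_ei hG.fm h]

theorem GH.law {u v v' : n → k} {c c' : k} (h : EP σ ε J u v c) (h' : EP σ ε J u v' c')
    {v'' : n → k} {c'' : k} (e1 : v'' = v + v') (e2 : c'' = c + c' - hf σ J v v') :
    hG.el u v c * hG.el u v' c' = hG.el u v'' c'' := by
  refine Subtype.ext ?_
  change (hG.el u v c).1 * (hG.el u v' c').1 = _
  rw [e1, e2, hG.val h, hG.val h', hG.val (ep_add hG.fm h h'), ei_law hG.fm h h']

theorem GH.zero {u : n → k} (hu : hf σ J u u = 0) : hG.el u 0 0 = 1 := by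
  refine Subtype.ext ?_
  have h : EP σ ε J u 0 0 := ⟨hu, hf_zero_left _ _ _, by rw [hf_zero_left, map_zero]; ring⟩
  rw [hG.val h, ei_zero hG.fm hu]
  rfl

theorem GH.conj (g : G) {u v : n → k} {c : k} (h : EP σ ε J u v c) :
    hG.el u v c * g = g * hG.el (u ᵥ* g.1.1) (v ᵥ* g.1.1) c := by
  refine Subtype.ext ?_
  change (hG.el u v c).1 * g.1 = g.1 * (hG.el (u ᵥ* g.1.1) (v ᵥ* g.1.1) c).1
  rw [hG.val h, hG.val (ep_act (hG.le g.2) h), ei_conj hG.fm (hG.le g.2) h]

theorem GH.conj' (g : G) {u v : n → k} {c : k} (h : EP σ ε J u v c) :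
    g⁻¹ * hG.el u v c * g = hG.el (u ᵥ* g.1.1) (v ᵥ* g.1.1) c := by
  rw [mul_assoc, hG.conj g h, inv_mul_cancel_left]

theorem GH.pow_z {p : n → k} (hp : hf σ J p p = 0) (s : k) (j : ℕ) :
    (hG.el p 0 (ε * σ s - s)) ^ j = hG.el p 0 (ε * σ (j * s) - j * s) := by
  induction j with
  | zero =>
    rw [pow_zero, Nat.cast_zero, zero_mul, map_zero, mul_zero, sub_zero, hG.zero hp]
  | succ j ih =>
    rw [pow_succ, ih]
    refine hG.law (ep_z hG.fm hp _) (ep_z hG.fm hp _) (add_zero _).symm ?_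
    rw [hf_zero_left]
    push_cast
    rw [add_mul, one_mul, map_add]
    ring

theorem GH.comm1 {p v w : n → k} {c c' : k} (h : EP σ ε J p v c) (h' : EP σ ε J p w c') :
    hG.el p v c * hG.el p w c' = hG.el p w c' * (hG.el p v c *
      hG.el p 0 (ε * σ (hf σ J v w) - hf σ J v w)) := by
  refine Subtype.ext ?_
  change (hG.el p v c).1 * (hG.el p w c').1 = (hG.el p w c').1 * ((hG.el p v c).1 *
      (hG.el p 0 (ε * σ (hf σ J v w) - hf σ J v w)).1)
  rw [hG.val h, hG.val h', hG.val (ep_z hG.fm h.uu _), ei_comm1 hG.fm h h']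

end grp

section grp2

variable {n : Type} [Fintype n] [DecidableEq n] {k : Type} [Field k]
  {J : Matrix n n k} {G : Subgroup (SpecialLinearGroup n k)} (hG : GH (RingHom.id k) 1 J G)

theorem ep_ab {a b : n → k} (haa : hf (RingHom.id k) J a a = 0)
    (hbb : hf (RingHom.id k) J b b = 0) (hab : hf (RingHom.id k) J a b = 0) (t : k) :
    EP (RingHom.id k) 1 J b (t • a) 0 :=
  ⟨hbb, by rw [hf_smul_left, hab, mul_zero], by
    rw [hf_smul_left, hf_smul_right, haa, map_zero]; ring⟩

theorem GH.comm2 {a b v w : n → k} {c c' α β α' β' : k}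
    (haa : hf (RingHom.id k) J a a = 0) (hbb : hf (RingHom.id k) J b b = 0)
    (hab : hf (RingHom.id k) J a b = 0)
    (hva : hf (RingHom.id k) J v a = 0) (hvb : hf (RingHom.id k) J v b = 0)
    (hwa : hf (RingHom.id k) J w a = 0) (hwb : hf (RingHom.id k) J w b = 0)
    (h : EP (RingHom.id k) 1 J (α • a + β • b) v c)
    (h' : EP (RingHom.id k) 1 J (α' • a + β' • b) w c') :
    hG.el (α • a + β • b) v c * hG.el (α' • a + β' • b) w c' =
      hG.el (α' • a + β' • b) w c' * (hG.el (α • a + β • b) v c *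
          hG.el b (((β' * α - α' * β) * hf (RingHom.id k) J v w) • a) 0) := by
  refine Subtype.ext ?_
  change (hG.el (α • a + β • b) v c).1 * (hG.el (α' • a + β' • b) w c').1 =
      (hG.el (α' • a + β' • b) w c').1 * ((hG.el (α • a + β • b) v c).1 *
          (hG.el b (((β' * α - α' * β) * hf (RingHom.id k) J v w) • a) 0).1)
  rw [hG.val h, hG.val h', hG.val (ep_ab haa hbb hab _),
    ei_comm2 hG.fm haa hbb hab hva hvb hwa hwb h h']

theorem GH.pow_z2 {a b : n → k} (haa : hf (RingHom.id k) J a a = 0)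
    (hbb : hf (RingHom.id k) J b b = 0) (hab : hf (RingHom.id k) J a b = 0) (t : k) (j : ℕ) :
    (hG.el b (t • a) 0) ^ j = hG.el b ((j * t) • a) 0 := by
  induction j with
  | zero =>
    rw [pow_zero, Nat.cast_zero, zero_mul, zero_smul, hG.zero hbb]
  | succ j ih =>
    rw [pow_succ, ih]
    refine hG.law (ep_ab haa hbb hab _) (ep_ab haa hbb hab _) ?_ ?_
    · push_cast
      rw [← add_smul]
      congr 1
      ring
    · rw [hf_smul_left, hf_smul_right, haa]
      ring

end grp2

section nrm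

variable {n : Type} [Fintype n] [DecidableEq n] {k : Type} [NormedField k]
  {σ : k →+* k} {ε : k} {J : Matrix n n k} {G : Subgroup (SpecialLinearGroup n k)}
  (hG : GH σ ε J G)

theorem norm_eps (he : ε * ε = 1) : ‖ε‖ = 1 := by
  have h : ‖ε‖ * ‖ε‖ = 1 := by rw [← norm_mul, he, norm_one]
  nlinarith [norm_nonneg ε]

/-- the distance of the Eichler elements to `1` -/
theorem GH.pn_el (hσn : ∀ x, ‖σ x‖ = ‖x‖) (u v : n → k) (c : k) (hu : ‖u‖ ≤ 1) :
    pn ((hG.el u v c).1.1 - 1) ≤ (2 * (Fintype.card n * pn J)) * (‖v‖ + ‖c‖) := by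
  have hN : (0 : ℝ) ≤ Fintype.card n * pn J := mul_nonneg (Nat.cast_nonneg _) (pn_nonneg J)
  have h0 : 0 ≤ (2 * (Fintype.card n * pn J)) * (‖v‖ + ‖c‖) := by positivity
  by_cases h : EP σ ε J u v c
  · have e : (hG.el u v c).1.1 - 1 =
        vecMulVec (J *ᵥ fun i => σ (u i)) (v + (ε * c) • u) +
          vecMulVec (J *ᵥ fun i => σ (v i)) (-ε • u) := by
      rw [hG.val h]
      unfold ei
      rw [dif_pos ⟨h.uu, hG.fm.symm0 h.vu, h.vu⟩, toSL_val]
      unfold eim
      rw [add_sub_cancel_left]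
    have hmv : ∀ (w : n → k) (i : n), ‖(J *ᵥ fun i => σ (w i)) i‖ ≤
        (Fintype.card n * pn J) * ‖w‖ := by
      intro w i
      rw [mulVec, dotProduct]
      refine (norm_sum_le _ _).trans ?_
      have h1 : ∀ j ∈ Finset.univ, ‖J i j * σ (w j)‖ ≤ pn J * ‖w‖ := by
        intro j _
        rw [norm_mul, hσn]
        exact mul_le_mul (le_pn J i j) (norm_le_pi_norm w j) (norm_nonneg _) (pn_nonneg J)
      refine (Finset.sum_le_sum h1).trans (le_of_eq ?_)
      rw [Finset.sum_const, Finset.card_univ, nsmul_eq_mul, mul_assoc]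
    have he := norm_eps hG.fm.eps
    rw [e]
    refine pn_le h0 fun i j => ?_
    rw [Matrix.add_apply, vecMulVec_apply, vecMulVec_apply]
    refine (norm_add_le _ _).trans ?_
    rw [norm_mul, norm_mul]
    have a1 := hmv u i
    have a2 := hmv v i
    have a3 : ‖(v + (ε * c) • u) j‖ ≤ ‖v‖ + ‖c‖ := by
      refine (norm_add_le _ _).trans (add_le_add (norm_le_pi_norm v j) ?_)
      rw [Pi.smul_apply, norm_smul, norm_mul, he, one_mul]
      have := norm_le_pi_norm u j
      have : ‖u j‖ ≤ 1 := this.trans hu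
      nlinarith [norm_nonneg c]
    have a4 : ‖(-ε • u) j‖ ≤ 1 := by
      rw [Pi.smul_apply, norm_smul, norm_neg, he, one_mul]
      exact (norm_le_pi_norm u j).trans hu
    have a5 : ‖(J *ᵥ fun i => σ (u i)) i‖ ≤ Fintype.card n * pn J :=
      a1.trans (mul_le_of_le_one_right hN hu)
    have b1 : ‖(J *ᵥ fun i => σ (u i)) i‖ * ‖(v + (ε * c) • u) j‖ ≤
        (Fintype.card n * pn J) * (‖v‖ + ‖c‖) :=
      mul_le_mul a5 a3 (norm_nonneg _) hN
    have b2 : ‖(J *ᵥ fun i => σ (v i)) i‖ * ‖(-ε • u) j‖ ≤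
        (Fintype.card n * pn J) * ‖v‖ * 1 :=
      mul_le_mul a2 a4 (norm_nonneg _) (mul_nonneg hN (norm_nonneg _))
    have b3 : 0 ≤ (Fintype.card n * pn J) * ‖c‖ := mul_nonneg hN (norm_nonneg _)
    nlinarith
  · have e : (hG.el u v c).1.1 - 1 = 0 := by
      unfold GH.el
      rw [dif_neg h]
      exact sub_self _
    rw [e]
    refine pn_le h0 fun i j => ?_
    rw [Matrix.zero_apply, norm_zero]
    exact h0

end nrm

end Vale.Agent.P092.H780
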