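import Vale.Agent.P092.H780.Gap1
import Vale.Agent.P092.H780.Gap2
import Vale.Agent.P092.H714.SpM

/-!
P092 (helper780), Team P, block [CL-GAP], part 3: decay of coefficients, levels 0 and 1, and the
total sets of good vectors.
-/

set_option linter.all false

namespace Vale.Agent.P092.H780

open Filter Topology Matrix
open Vale.Agent.P092.H303 (FormGroup)
open Vale.Agent.P092.H714.Cl
open Vale.Agent.P092.H714.Sg (Fm)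
open Vale.Agent.P092.H370.Fo (EP ei)
open Vale.Agent.P092.H933 (URep LeviGap fixedSub)
open Vale.Agent.P092.H956 (pn pn_nonneg pn_mul Lips dense_lips nrm)

open scoped InnerProductSpace

section push

variable {E : Type*} [Group E] [TopologicalSpace E] {𝓗 : Type*} [NormedAddCommGroup 𝓗]
  [InnerProductSpace ℂ 𝓗] {ρ : E →* (𝓗 →L[ℂ] 𝓗)}

theorem push' {k' : Type*} [NormedField k'] {c : k'} (hc : 4 ≤ ‖c‖) (hρ : URep ρ) {ξ : 𝓗}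
    (g : E) {U : k' → E} (hU1 : ∀ y y', U y = U y' * U (y - y')) (hU0 : U 0 = 1)
    {C : ℝ} (hC0 : 0 ≤ C) (hU : ∀ y, ‖ρ (U y) ξ - ξ‖ ≤ C * ‖y‖)
    {Γ K : ℝ} (hK0 : 0 ≤ K)
    (hK : ∀ (n : ℕ) (y : k'), ‖c‖ ^ n ≤ ‖y‖ * Γ →
      ‖⟪ρ (g⁻¹ * U y * g) ξ, ξ⟫_ℂ‖ ≤ K * (3 / 4) ^ n) (l : ℕ)
    (hl : (‖c‖ ^ 4) ^ l ≤ Γ) :
    ‖⟪ρ g ξ, ξ⟫_ℂ‖ ≤ (‖ξ‖ * Real.sqrt (‖ξ‖ ^ 2 + K) + C * ‖ξ‖) * (3 / 4) ^ l := by
  refine push_decay hc hρ (N := fun y => g⁻¹ * U y * g) (U := U) (fun y y' => ?_) ?_ (fun y => ?_)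
    hC0 hU hK0 hK l hl
  · rw [hU1 y y']
    group
  · rw [hU0]
    group
  · group

end push

section slow

variable {n : Type} [Fintype n] [DecidableEq n] {k : Type} [NontriviallyNormedField k]
  {σ : k →+* k} {ε : k} {J : Matrix n n k} {G : Subgroup (SpecialLinearGroup n k)}
  {𝓗 : Type*} [NormedAddCommGroup 𝓗] [InnerProductSpace ℂ 𝓗] {ρ : G →* (𝓗 →L[ℂ] 𝓗)}

/-- slow vectors: the small Eichler elements move them a little -/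
def Slow (hG : GH σ ε J G) (ρ : G →* (𝓗 →L[ℂ] 𝓗)) (ξ : 𝓗) (M : ℝ) : Prop :=
  0 ≤ M ∧ ∀ (u v : n → k) (c : k), ‖u‖ ≤ 1 → ‖ρ (hG.el u v c) ξ - ξ‖ ≤ M * (‖v‖ + ‖c‖)

theorem slow_of (hG : GH σ ε J G) (hσn : ∀ x, ‖σ x‖ = ‖x‖) {ξ : 𝓗} (hξ : ξ ∈ Lips ρ) :
    ∃ M, Slow hG ρ ξ M := by
  obtain ⟨L, hL0, hL⟩ := hξ
  have hN : (0 : ℝ) ≤ Fintype.card n * pn J := mul_nonneg (Nat.cast_nonneg _) (pn_nonneg J)
  refine ⟨L * (2 * (Fintype.card n * pn J)), by positivity, fun u v c hu => ?_⟩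
  refine (hL _).trans ?_
  rw [mul_assoc]
  exact mul_le_mul_of_nonneg_left (hG.pn_el hσn u v c hu) hL0

/-- Lipschitz vectors form an invariant set -/
theorem lips_act (hρ : URep ρ) {ζ : 𝓗} (hζ : ζ ∈ Lips ρ) (g : G) : ρ g ζ - ζ ∈ Lips ρ := by
  obtain ⟨C, hC0, hC⟩ := hζ
  obtain ⟨D, hD⟩ : ∃ D : ℝ, D = (Fintype.card n : ℝ) * (pn (g⁻¹ : G).1.1 *
    (Fintype.card n * pn g.1.1)) := ⟨_, rfl⟩
  have hD0 : 0 ≤ D := by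
    rw [hD]
    have := pn_nonneg (g⁻¹ : G).1.1
    have := pn_nonneg g.1.1
    positivity
  refine ⟨C * D + C, by positivity, fun h => ?_⟩
  have e1 : ρ h (ρ g ζ - ζ) - (ρ g ζ - ζ) =
      ρ g (ρ (g⁻¹ * h * g) ζ - ζ) - (ρ h ζ - ζ) := by
    rw [map_sub, map_sub, ← URep.mul_apply, ← URep.mul_apply]
    have : g * (g⁻¹ * h * g) = h * g := by group
    rw [this]
    abel
  rw [e1]
  refine (norm_sub_le _ _).trans ?_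
  rw [hρ.iso, add_mul]
  refine add_le_add ?_ (hC h)
  refine (hC _).trans ?_
  have e2 : (g⁻¹ * h * g : G).1.1 - 1 = (g⁻¹ : G).1.1 * ((h.1.1 - 1) * g.1.1) := by
    have h1 : (g⁻¹ * h * g : G).1.1 = (g⁻¹ : G).1.1 * h.1.1 * g.1.1 := rfl
    have h2 : (g⁻¹ : G).1.1 * g.1.1 = 1 := congrArg (fun g : G => g.1.1) (inv_mul_cancel g)
    rw [h1, Matrix.sub_mul, Matrix.mul_sub, Matrix.one_mul, h2, Matrix.mul_assoc]
  rw [e2, mul_assoc]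
  refine mul_le_mul_of_nonneg_left ?_ hC0
  have h3 := pn_mul (g⁻¹ : G).1.1 ((h.1.1 - 1) * g.1.1)
  have h4 := pn_mul (h.1.1 - 1) g.1.1
  have h5 := pn_nonneg (g⁻¹ : G).1.1
  have h6 := pn_nonneg (h.1.1 - 1)
  calc pn ((g⁻¹ : G).1.1 * ((h.1.1 - 1) * g.1.1))
      ≤ Fintype.card n * (pn (g⁻¹ : G).1.1 *
        (Fintype.card n * (pn (h.1.1 - 1) * pn g.1.1))) := h3.trans (by gcongr)
    _ = D * pn (h.1.1 - 1) := by rw [hD]; ring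

/-- **Level 1 in the unipotent radical of the point `p`** -/
def Lv1 (hG : GH σ ε J G) (ρ : G →* (𝓗 →L[ℂ] 𝓗)) (ξ : 𝓗) (B : ℝ) (p : n → k) : Prop :=
  ∃ K : ℝ, 0 ≤ K ∧ ∀ (g : G) (u w : n → k) (l : ℕ), p ᵥ* g.1.1 = p → hf σ J u u = 0 →
    hf σ J u p = 0 → ‖u‖ ≤ 1 → hf σ J w w = 0 → hf σ J w p = 0 → ‖w‖ ≤ 1 →
    B ^ l ≤ ‖hf σ J (u ᵥ* g.1.1) w‖ → ‖⟪ρ g ξ, ξ⟫_ℂ‖ ≤ K * (3 / 4) ^ l

theorem norm_nat_le {j m : ℕ} (hj : j < 2 ^ m) : ‖(j : k)‖ ≤ 2 ^ m := by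
  have h6 := Nat.norm_cast_le (α := k) j
  rw [norm_one, mul_one] at h6
  have h7 : (j : ℝ) ≤ 2 ^ m := by exact_mod_cast hj.le
  linarith

theorem lv1 (hG : GH σ ε J G) (hρ : URep ρ) (hσn : ∀ x, ‖σ x‖ = ‖x‖) {c : k} (hc : 4 ≤ ‖c‖)
    {p : n → k} (hp : hf σ J p p = 0) (hp1 : ‖p‖ ≤ 1) {s₀ : k} {ζ ξ : 𝓗}
    (hξ : ξ = ρ (hG.el p 0 (ε * σ s₀ - s₀)) ζ - ζ) {M : ℝ} (hM : Slow hG ρ ξ M) :
    Lv1 hG ρ ξ (‖c‖ ^ 4) p := by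
  obtain ⟨hM0, hM⟩ := hM
  obtain ⟨K, hK⟩ : ∃ K, K = 2 * ‖ζ‖ * ‖ξ‖ + 2 * (M * ‖s₀‖) * ‖ξ‖ := ⟨_, rfl⟩
  have hK0 : 0 ≤ K := by rw [hK]; positivity
  -- level 0
  have h0 : ∀ (v w : n → k) (m : ℕ), hf σ J v v = 0 → hf σ J v p = 0 → hf σ J w w = 0 →
      hf σ J w p = 0 → ‖w‖ ≤ 1 → ‖c‖ ^ m ≤ ‖hf σ J v w‖ →
      ‖⟪ρ (hG.el p v 0) ξ, ξ⟫_ℂ‖ ≤ K * (3 / 4) ^ m := by
    intro v w m hv hvp hw hwp hw1 hm
    rw [hK]
    refine lvl0 hρ hξ (by positivity) fun j hj => ?_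
    have hpos : 0 < ‖hf σ J v w‖ := lt_of_lt_of_le (pow_pos (by linarith) m) hm
    have hne : hf σ J v w ≠ 0 := norm_pos_iff.1 hpos
    obtain ⟨y, hy⟩ : ∃ y, y = σ (j * s₀ / hf σ J v w) := ⟨_, rfl⟩
    have hyw : σ y * hf σ J v w = j * s₀ := by rw [hy, hG.fm.inv, div_mul_cancel₀ _ hne]
    have e1 : EP σ ε J p v 0 := ⟨hp, hvp, by rw [hv, map_zero]; ring⟩
    have e2 : EP σ ε J p (y • w) 0 := ⟨hp, by rw [hf_smul_left, hwp, mul_zero], by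
      rw [hf_smul_left, hf_smul_right, hw, map_zero]; ring⟩
    refine ⟨hG.el p (y • w) 0, ?_, ?_⟩
    · rw [hG.comm1 e1 e2, hf_smul_right, hyw, hG.pow_z hp]
    · refine (hM p (y • w) 0 hp1).trans ?_
      rw [norm_zero, add_zero, norm_smul]
      have h1 : ‖y‖ ≤ ‖s₀‖ * (2 ^ m / ‖hf σ J v w‖) := by
        rw [hy, hσn, norm_div, norm_mul]
        have h5 := norm_nat_le (k := k) hj
        calc ‖(j : k)‖ * ‖s₀‖ / ‖hf σ J v w‖ ≤ 2 ^ m * ‖s₀‖ / ‖hf σ J v w‖ := by gcongr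
          _ = _ := by ring
      have h2 := two_pow_div hc hm
      have h3 : ‖y‖ ≤ ‖s₀‖ * (3 / 4) ^ m := h1.trans (by gcongr)
      calc M * (‖y‖ * ‖w‖) ≤ M * ((‖s₀‖ * (3 / 4) ^ m) * 1) := by gcongr
        _ = M * ‖s₀‖ * (3 / 4) ^ m := by ring
  refine ⟨‖ξ‖ * Real.sqrt (‖ξ‖ ^ 2 + K) + M * ‖ξ‖, by positivity,
    fun g u w l hgp hu hup hu1 hw hwp hw1 hl => ?_⟩
  have e1 : ∀ y : k, EP σ ε J p (y • u) 0 := fun y =>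
    ⟨hp, by rw [hf_smul_left, hup, mul_zero], by
      rw [hf_smul_left, hf_smul_right, hu, map_zero]; ring⟩
  refine push' (c := c) hc hρ g (U := fun y => hG.el p (y • u) 0) (fun y y' => ?_) ?_ hM0
    (fun y => ?_) hK0 (fun m y hm => ?_) l hl
  · refine (hG.law (e1 y') (e1 (y - y')) ?_ ?_).symm
    · rw [← add_smul, add_sub_cancel]
    · rw [hf_smul_left, hf_smul_right, hu]; ring
  · beta_reduce
    rw [zero_smul, hG.zero hp]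
  · refine (hM p (y • u) 0 hp1).trans ?_
    rw [norm_zero, add_zero, norm_smul]
    have := norm_nonneg y
    calc M * (‖y‖ * ‖u‖) ≤ M * (‖y‖ * 1) := by gcongr
      _ = M * ‖y‖ := by ring
  · beta_reduce
    rw [hG.conj' g (e1 y), hgp, smul_vecMul]
    have hug : hf σ J (u ᵥ* g.1.1) (u ᵥ* g.1.1) = 0 := by rw [mem_formGroup.1 (hG.le g.2), hu]
    have hugp : hf σ J (u ᵥ* g.1.1) p = 0 := by
      have := mem_formGroup.1 (hG.le g.2) u p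
      rw [hgp] at this
      rw [this, hup]
    refine h0 _ w m ?_ ?_ hw hwp hw1 ?_
    · rw [hf_smul_left, hf_smul_right, hug]; ring
    · rw [hf_smul_left, hugp, mul_zero]
    · rw [hf_smul_left, norm_mul]; exact hm

end slow

section total

variable {n : Type} [Fintype n] [DecidableEq n] {k : Type} [NontriviallyNormedField k]
  {G : Subgroup (SpecialLinearGroup n k)}
  {𝓗 : Type} [NormedAddCommGroup 𝓗] [InnerProductSpace ℂ 𝓗] [CompleteSpace 𝓗]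
  {ρ : G →* (𝓗 →L[ℂ] 𝓗)}

/-- the good vectors -/
def Good2 (S1 S2 : Set G) (ρ : G →* (𝓗 →L[ℂ] 𝓗)) : Set 𝓗 :=
  {ξ | ∃ z1 ∈ S1, ∃ z2 ∈ S2, ∃ ζ ∈ Lips ρ, ξ = ρ z1 (ρ z2 ζ - ζ) - (ρ z2 ζ - ζ)}

theorem total2 [ProperSpace k] (hGc : IsClosed (G : Set (SpecialLinearGroup n k)))
    (hρ : URep ρ) {S1 S2 : Set G} (h1 : RC.Moore S1) (h2 : RC.Moore S2)
    (hi1 : ∀ z ∈ S1, z⁻¹ ∈ S1) (hi2 : ∀ z ∈ S2, z⁻¹ ∈ S2) {v : 𝓗}
    (hv : ∀ η ∈ fixedSub ρ, ⟪η, v⟫_ℂ = 0) :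
    v ∈ (Submodule.span ℂ (Good2 S1 S2 ρ)).topologicalClosure := by
  rw [← Submodule.orthogonal_orthogonal_eq_closure, Submodule.mem_orthogonal]
  intro η hη
  refine hv η ?_
  have hcont : ∀ ξ, Continuous fun g => ρ g ξ := by
    intro ξ
    rw [continuous_iff_continuousAt]
    intro g
    exact hρ.tendsto tendsto_id tendsto_const_nhds
  have hstep : ∀ z1 ∈ S1, ∀ z2 ∈ S2, ρ z2 (ρ z1 η - η) - (ρ z1 η - η) = 0 := by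
    intro z1 hz1 z2 hz2
    have h3 : ∀ ζ ∈ Lips ρ, ⟪ζ, ρ z2 (ρ z1 η - η) - (ρ z1 η - η)⟫_ℂ = 0 := by
      intro ζ hζ
      have h4 := (Submodule.mem_orthogonal _ _).1 hη _
        (Submodule.subset_span ⟨z1⁻¹, hi1 z1 hz1, z2⁻¹, hi2 z2 hz2, ζ, hζ, rfl⟩)
      rw [inner_sub_left, hρ.inner_left, inv_inv, ← inner_sub_right, inner_sub_left,
        hρ.inner_left, inv_inv, ← inner_sub_right] at h4
      exact h4
    have h5 : ∀ ζ : 𝓗, ⟪ζ, ρ z2 (ρ z1 η - η) - (ρ z1 η - η)⟫_ℂ = 0 := by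
      intro ζ
      have hcl : IsClosed {ζ : 𝓗 | ⟪ζ, ρ z2 (ρ z1 η - η) - (ρ z1 η - η)⟫_ℂ = 0} :=
        isClosed_eq (continuous_id.inner continuous_const) continuous_const
      exact closure_minimal h3 hcl (dense_lips hGc hρ ζ)
    exact inner_self_eq_zero.1 (h5 _)
  refine h1 𝓗 ρ hρ.iso hcont η fun z1 hz1 => ?_
  have hfix := h2 𝓗 ρ hρ.iso hcont (ρ z1 η - η) (fun z2 hz2 => sub_eq_zero.1 (hstep z1 hz1 z2 hz2))
  have h6 : ⟪ρ z1 η - η, ρ z1 η - η⟫_ℂ = 0 := by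
    rw [inner_sub_right, hρ.inner_right z1, hfix, sub_self]
  exact sub_eq_zero.1 (inner_self_eq_zero.1 h6)

end total

end Vale.Agent.P092.H780
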