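import Vale.Agent.P092.H780.Gap3

/-!
P092 (helper780), Team P, block [CL-GAP], part 4: two hyperbolic pairs; the shears of the two walls
and the decay of coefficients along their words.
-/

set_option linter.all false

namespace Vale.Agent.P092.H780

open Filter Topology Matrix
open Vale.Agent.P092.H303 (FormGroup)
open Vale.Agent.P092.H714.Cl
open Vale.Agent.P092.H714.Sg (Fm)
open Vale.Agent.P092.H370.Fo (EP ei)
open Vale.Agent.P092.H933 (URep LeviGap fixedSub)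
open Vale.Agent.P092.H956 (pn pn_nonneg pn_mul Lips dense_lips nrm up lo)

open scoped InnerProductSpace

section mk

variable {E : Type*} [Group E] {k : Type} [NormedField k]

/-- eight elements from two one-parameter families -/
def mkW (Wu Wl : k → E) (c : k) : Fin 8 → E :=
  ![Wu (c ^ 20), Wu (-(c ^ 20)), Wu (c ^ 21), Wu (-(c ^ 21)),
    Wl (c ^ 20), Wl (-(c ^ 20)), Wl (c ^ 21), Wl (-(c ^ 21))]

/-- the parameters used -/
structure Par (T : k → Prop) (c : k) : Prop where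
  p1 : T (c ^ 20)
  p2 : T (-(c ^ 20))
  p3 : T (c ^ 21)
  p4 : T (-(c ^ 21))

theorem mkW_all {Wu Wl : k → E} {c : k} {T : k → Prop} (hT : Par T c) {Q : E → Prop}
    (hu : ∀ t, T t → Q (Wu t)) (hl : ∀ t, T t → Q (Wl t)) (i : Fin 8) : Q (mkW Wu Wl c i) := by
  fin_cases i
  · exact hu _ hT.p1
  · exact hu _ hT.p2
  · exact hu _ hT.p3
  · exact hu _ hT.p4
  · exact hl _ hT.p1
  · exact hl _ hT.p2
  · exact hl _ hT.p3
  · exact hl _ hT.p4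

theorem mkW_inv {Wu Wl : k → E} {c : k} {T : k → Prop} (hT : Par T c)
    (hu : ∀ t, T t → (Wu t)⁻¹ = Wu (-t)) (hl : ∀ t, T t → (Wl t)⁻¹ = Wl (-t)) (i : Fin 8) :
    (mkW Wu Wl c i)⁻¹ = mkW Wu Wl c (op8 i) := by
  fin_cases i
  · exact hu _ hT.p1
  · exact (hu _ hT.p2).trans (by rw [neg_neg]; rfl)
  · exact hu _ hT.p3
  · exact (hu _ hT.p4).trans (by rw [neg_neg]; rfl)
  · exact hl _ hT.p1
  · exact (hl _ hT.p2).trans (by rw [neg_neg]; rfl)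
  · exact hl _ hT.p3
  · exact (hl _ hT.p4).trans (by rw [neg_neg]; rfl)

theorem mkW_P {Wu Wl : k → E} {c : k} {T : k → Prop} (hT : Par T c)
    {P : E → SpecialLinearGroup (Fin 2) k → Prop}
    (hu : ∀ t, T t → ∀ g A, P g A → P (Wu t * g) (up t * A))
    (hl : ∀ t, T t → ∀ g A, P g A → P (Wl t * g) (lo t * A)) (i : Fin 8) (g : E)
    (A : SpecialLinearGroup (Fin 2) k) (h : P g A) : P (mkW Wu Wl c i * g) (sh8 c i * A) := by
  fin_cases i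
  · exact hu _ hT.p1 g A h
  · exact hu _ hT.p2 g A h
  · exact hu _ hT.p3 g A h
  · exact hu _ hT.p4 g A h
  · exact hl _ hT.p1 g A h
  · exact hl _ hT.p2 g A h
  · exact hl _ hT.p3 g A h
  · exact hl _ hT.p4 g A h

theorem up_mul (t : k) (A : SpecialLinearGroup (Fin 2) k) :
    (up t * A).1 0 0 = A.1 0 0 + t * A.1 1 0 ∧ (up t * A).1 0 1 = A.1 0 1 + t * A.1 1 1 ∧
    (up t * A).1 1 0 = A.1 1 0 ∧ (up t * A).1 1 1 = A.1 1 1 := by
  rw [Matrix.SpecialLinearGroup.coe_mul]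
  refine ⟨?_, ?_, ?_, ?_⟩ <;> simp [up, Matrix.mul_apply, Fin.sum_univ_two]

theorem lo_mul (t : k) (A : SpecialLinearGroup (Fin 2) k) :
    (lo t * A).1 0 0 = A.1 0 0 ∧ (lo t * A).1 0 1 = A.1 0 1 ∧
    (lo t * A).1 1 0 = t * A.1 0 0 + A.1 1 0 ∧ (lo t * A).1 1 1 = t * A.1 0 1 + A.1 1 1 := by
  rw [Matrix.SpecialLinearGroup.coe_mul]
  refine ⟨?_, ?_, ?_, ?_⟩ <;> simp [lo, Matrix.mul_apply, Fin.sum_univ_two]

theorem det_sl2 (A : SpecialLinearGroup (Fin 2) k) :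
    A.1 0 0 * A.1 1 1 - A.1 0 1 * A.1 1 0 = 1 := by
  rw [← Matrix.det_fin_two]; exact A.2

theorem nrm_cases (A : SpecialLinearGroup (Fin 2) k) :
    nrm A = ‖A.1 0 0‖ ∨ nrm A = ‖A.1 1 0‖ ∨ nrm A = ‖A.1 0 1‖ ∨ nrm A = ‖A.1 1 1‖ := by
  unfold nrm
  rcases max_choice (max ‖A.1 0 0‖ ‖A.1 1 0‖) (max ‖A.1 0 1‖ ‖A.1 1 1‖) with h | h <;> rw [h]
  · rcases max_choice ‖A.1 0 0‖ ‖A.1 1 0‖ with h | h <;> simp [h]
  · rcases max_choice ‖A.1 0 1‖ ‖A.1 1 1‖ with h | h <;> simp [h]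

theorem half_le_nrm (A : SpecialLinearGroup (Fin 2) k) : 1 / 2 ≤ nrm A := by
  have a1 : ‖A.1 0 0‖ ≤ nrm A := (le_max_left _ _).trans (le_max_left _ _)
  have a2 : ‖A.1 1 0‖ ≤ nrm A := (le_max_right _ _).trans (le_max_left _ _)
  have a3 : ‖A.1 0 1‖ ≤ nrm A := (le_max_left _ _).trans (le_max_right _ _)
  have a4 : ‖A.1 1 1‖ ≤ nrm A := (le_max_right _ _).trans (le_max_right _ _)
  have a0 : 0 ≤ nrm A := (norm_nonneg _).trans a1
  have h : (1 : ℝ) ≤ nrm A * nrm A + nrm A * nrm A := by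
    have h1 : ‖(1 : k)‖ = ‖A.1 0 0 * A.1 1 1 - A.1 0 1 * A.1 1 0‖ := by rw [det_sl2]
    rw [norm_one] at h1
    rw [h1]
    refine (norm_sub_le _ _).trans (add_le_add ?_ ?_)
    · rw [norm_mul]; exact mul_le_mul a1 a4 (norm_nonneg _) a0
    · rw [norm_mul]; exact mul_le_mul a3 a2 (norm_nonneg _) a0
  nlinarith

end mk

section pairs

variable {n : Type} [Fintype n] [DecidableEq n] {k : Type} [NontriviallyNormedField k]

/-- two orthogonal hyperbolic pairs -/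
structure HB (σ : k →+* k) (J : Matrix n n k) (x₀ y₀ x₁ y₁ : n → k) : Prop where
  x00 : hf σ J x₀ x₀ = 0
  y00 : hf σ J y₀ y₀ = 0
  x11 : hf σ J x₁ x₁ = 0
  y11 : hf σ J y₁ y₁ = 0
  xx : hf σ J x₀ x₁ = 0
  xy : hf σ J x₀ y₁ = 0
  yx : hf σ J y₀ x₁ = 0
  yy : hf σ J y₀ y₁ = 0
  h0 : hf σ J x₀ y₀ = 1
  h1 : hf σ J x₁ y₁ = 1
  nx0 : ‖x₀‖ ≤ 1
  ny0 : ‖y₀‖ ≤ 1
  nx1 : ‖x₁‖ ≤ 1
  ny1 : ‖y₁‖ ≤ 1

variable {σ : k →+* k} {ε : k} {J : Matrix n n k} {x₀ y₀ x₁ y₁ v₀ : n → k}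
  {G : Subgroup (SpecialLinearGroup n k)}
  {𝓗 : Type*} [NormedAddCommGroup 𝓗] [InnerProductSpace ℂ 𝓗] {ρ : G →* (𝓗 →L[ℂ] 𝓗)}

theorem vm_mul (x : n → k) (g h : G) : x ᵥ* (g * h).1.1 = (x ᵥ* g.1.1) ᵥ* h.1.1 :=
  vecMul_mul' x g.1 h.1

theorem vm_one (x : n → k) : x ᵥ* (1 : G).1.1 = x := vecMul_one' x

theorem HB.fx (hB : HB σ J x₀ y₀ x₁ y₁) (hF : Fm σ ε J) : hf σ J y₀ x₀ = ε ∧ hf σ J y₁ x₁ = ε ∧
    hf σ J x₁ x₀ = 0 ∧ hf σ J y₁ x₀ = 0 ∧ hf σ J x₁ y₀ = 0 ∧ hf σ J y₁ y₀ = 0 := by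
  refine ⟨?_, ?_, hF.symm0 hB.xx, hF.symm0 hB.xy, hF.symm0 hB.yx, hF.symm0 hB.yy⟩
  · rw [hF.herm, hB.h0, map_one, mul_one]
  · rw [hF.herm, hB.h1, map_one, mul_one]

/-! ### The wall of the maximal spaces: `SL₂` on `⟨x₀, x₁⟩` -/

/-- `g` acts by `A` on `⟨x₀, x₁⟩` and fixes `v₀` -/
def R2 (x₀ x₁ v₀ : n → k) (g : G) (A : SpecialLinearGroup (Fin 2) k) : Prop :=
  x₀ ᵥ* g.1.1 = A.1 0 0 • x₀ + A.1 0 1 • x₁ ∧ x₁ ᵥ* g.1.1 = A.1 1 0 • x₀ + A.1 1 1 • x₁ ∧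
    v₀ ᵥ* g.1.1 = v₀

/-- `x₀ ↦ x₀ + t x₁` -/
noncomputable def w2u (hG : GH σ ε J G) (y₀ x₁ : n → k) (t : k) : G :=
  hG.el x₁ (-(ε * σ t) • y₀) 0

theorem w2_ep (hG : GH σ ε J G) {a b : n → k} (ha : hf σ J a a = 0) (hb : hf σ J b b = 0)
    (hba : hf σ J b a = 0) (s : k) : EP σ ε J a (s • b) 0 :=
  ⟨ha, by rw [hf_smul_left, hba, mul_zero], by
    rw [hf_smul_left, hf_smul_right, hb, map_zero]; ring⟩

theorem w2_act (hG : GH σ ε J G) {a b : n → k} (ha : hf σ J a a = 0) (hb : hf σ J b b = 0)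
    (hba : hf σ J b a = 0) (t : k) (x : n → k) :
    x ᵥ* (hG.el a (-(ε * σ t) • b) 0).1.1 =
      x - (ε * σ t * hf σ J x a) • b + (t * hf σ J x b) • a := by
  rw [hG.act (w2_ep hG ha hb hba _), hf_smul_right, map_neg, map_mul, hG.fm.seps, hG.fm.inv]
  have he := hG.fm.eps
  have e1 : ε * (-(ε * t) * hf σ J x b) = -(t * hf σ J x b) := by
    linear_combination (-(t * hf σ J x b)) * he
  rw [e1, mul_zero, zero_mul]
  module

theorem w2_inv (hG : GH σ ε J G) {a b : n → k} (ha : hf σ J a a = 0) (hb : hf σ J b b = 0)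
    (hba : hf σ J b a = 0) (t : k) :
    (hG.el a (-(ε * σ t) • b) 0)⁻¹ = hG.el a (-(ε * σ (-t)) • b) 0 := by
  rw [inv_eq_iff_mul_eq_one, hG.law (w2_ep hG ha hb hba _) (w2_ep hG ha hb hba _)
    (v'' := 0) (c'' := 0), hG.zero ha]
  · rw [← add_smul, map_neg]
    have : -(ε * σ t) + -(ε * -σ t) = 0 := by ring
    rw [this, zero_smul]
  · rw [hf_smul_left, hf_smul_right, hb]; ring

variable (hG : GH σ ε J G) (hB : HB σ J x₀ y₀ x₁ y₁)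

include hB in
theorem r2_up (hv1 : hf σ J v₀ x₁ = 0) (hv2 : hf σ J v₀ y₀ = 0) (t : k) (g : G)
    (A : SpecialLinearGroup (Fin 2) k) (h : R2 x₀ x₁ v₀ g A) :
    R2 x₀ x₁ v₀ (hG.el x₁ (-(ε * σ t) • y₀) 0 * g) (up t * A) := by
  obtain ⟨h1, h2, h3⟩ := h
  obtain ⟨u1, u2, u3, u4⟩ := up_mul t A
  have hx := (hB.fx hG.fm).2.2.2.2.1
  refine ⟨?_, ?_, ?_⟩
  · rw [vm_mul, w2_act hG hB.x11 hB.y00 hB.yx, hB.xx, hB.h0, mul_zero, zero_smul, sub_zero,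
      mul_one, add_vecMul, smul_vecMul, h1, h2, u1, u2]
    module
  · rw [vm_mul, w2_act hG hB.x11 hB.y00 hB.yx, hB.x11, hx, mul_zero, zero_smul, sub_zero,
      mul_zero, zero_smul, add_zero, h2, u3, u4]
  · rw [vm_mul, w2_act hG hB.x11 hB.y00 hB.yx, hv1, hv2, mul_zero, zero_smul, sub_zero,
      mul_zero, zero_smul, add_zero, h3]

include hB in
theorem r2_lo (hv1 : hf σ J v₀ x₀ = 0) (hv2 : hf σ J v₀ y₁ = 0) (t : k) (g : G)
    (A : SpecialLinearGroup (Fin 2) k) (h : R2 x₀ x₁ v₀ g A) :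
    R2 x₀ x₁ v₀ (hG.el x₀ (-(ε * σ t) • y₁) 0 * g) (lo t * A) := by
  obtain ⟨h1, h2, h3⟩ := h
  obtain ⟨u1, u2, u3, u4⟩ := lo_mul t A
  have hx := (hB.fx hG.fm).2.2.1
  have hy := (hB.fx hG.fm).2.2.2.1
  refine ⟨?_, ?_, ?_⟩
  · rw [vm_mul, w2_act hG hB.x00 hB.y11 hy, hB.x00, hB.xy, mul_zero, zero_smul, sub_zero,
      mul_zero, zero_smul, add_zero, h1, u1, u2]
  · rw [vm_mul, w2_act hG hB.x00 hB.y11 hy, hx, hB.h1, mul_zero, zero_smul, sub_zero,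
      mul_one, add_vecMul, smul_vecMul, h1, h2, u3, u4]
    module
  · rw [vm_mul, w2_act hG hB.x00 hB.y11 hy, hv1, hv2, mul_zero, zero_smul, sub_zero,
      mul_zero, zero_smul, add_zero, h3]

/-- the eight shears of the wall of the maximal spaces -/
noncomputable def W2 (x₀ y₀ x₁ y₁ : n → k) (c : k) : Fin 8 → G :=
  mkW (fun t => hG.el x₁ (-(ε * σ t) • y₀) 0) (fun t => hG.el x₀ (-(ε * σ t) • y₁) 0) c

/-- **Decay for the wall of the maximal spaces**, unitary and symplectic groups -/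
theorem dec2U (hρ : URep ρ) (hσn : ∀ x, ‖σ x‖ = ‖x‖) {c : k} (hc : 4 ≤ ‖c‖) (hcσ : σ c = c)
    {c₀ : k} (hc0 : c₀ ≠ 0) (hcc : c₀ + ε * σ c₀ = 0) {ξ : 𝓗} (hB : HB σ J x₀ y₀ x₁ y₁)
    (h0 : Lv1 hG ρ ξ (‖c‖ ^ 4) x₀) (h1 : Lv1 hG ρ ξ (‖c‖ ^ 4) x₁) {M : ℝ}
    (hM : Slow hG ρ ξ M) : Dec8 (R2 x₀ x₁ v₀) ρ ((‖c‖ ^ 4) ^ 4) ξ := by
  obtain ⟨K0, hK0, h0⟩ := h0
  obtain ⟨K1, hK1, h1⟩ := h1
  obtain ⟨hM0, hM⟩ := hM
  have hc0n : 0 < ‖c₀‖ := norm_pos_iff.2 hc0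
  have hen := norm_eps hG.fm.eps
  obtain ⟨f1, f2, f3, f4, f5, f6⟩ := hB.fx hG.fm
  -- the fixed field
  obtain ⟨F, hF⟩ : ∃ F : Subfield k, F = RingHom.eqLocusField σ (RingHom.id k) := ⟨_, rfl⟩
  have hmem : ∀ x : k, x ∈ F ↔ σ x = x := fun x => by rw [hF]; rfl
  obtain ⟨cF, hcF⟩ : ∃ cF : F, (cF : k) = c ^ 4 :=
    ⟨⟨c ^ 4, (hmem _).2 (by rw [map_pow, hcσ])⟩, rfl⟩
  have hcFn : ‖cF‖ = ‖c‖ ^ 4 := by
    have : ‖cF‖ = ‖(cF : k)‖ := rfl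
    rw [this, hcF, norm_pow]
  have hcF4 : 4 ≤ ‖cF‖ := by
    rw [hcFn]
    calc (4 : ℝ) ≤ 4 ^ 4 := by norm_num
      _ ≤ ‖c‖ ^ 4 := pow_le_pow_left₀ (by norm_num) hc 4
  have hE : ∀ (e : n → k) (y : F), hf σ J e e = 0 → EP σ ε J e 0 (ε * ((y : k) * c₀)) := by
    intro e y he
    refine ⟨he, hf_zero_left _ _ _, ?_⟩
    rw [hf_zero_left, map_mul, map_mul, hG.fm.seps, (hmem _).1 y.2]
    linear_combination (ε * (y : k)) * hcc
  -- the elements `el q 0 (ε y c₀)`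
  have key : ∀ (α β : k) (q : n → k) (y : F) (m : ℕ) (N : ℝ), q = α • x₀ + β • x₁ →
      (‖α‖ = N ∨ ‖β‖ = N) → ‖cF‖ ^ m ≤ ‖y‖ * (‖c₀‖ * N ^ 2) →
      ‖⟪ρ (hG.el q 0 (ε * ((y : k) * c₀))) ξ, ξ⟫_ℂ‖ ≤ (K0 + K1) * (3 / 4) ^ m := by
    intro α β q y m N hq hN hm
    have hqq : hf σ J q q = 0 := by
      rw [hq]
      simp only [hf_add_left, hf_add_right, hf_smul_left, hf_smul_right, hB.x00, hB.x11, hB.xx, f3,
        mul_zero, add_zero]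
    have hx0q : hf σ J x₀ q = 0 := by
      rw [hq, hf_add_right, hf_smul_right, hf_smul_right, hB.x00, hB.xx]; ring
    have hx1q : hf σ J x₁ q = 0 := by
      rw [hq, hf_add_right, hf_smul_right, hf_smul_right, hB.x11, f3]; ring
    have hact := hG.act (hE q y hqq)
    have hyn : ‖y‖ = ‖(y : k)‖ := rfl
    rw [hcFn, hyn] at hm
    rcases hN with hN | hN
    · -- `‖α‖ = N`: the point `x₁`
      have hy0q : hf σ J y₀ q = σ α * ε := by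
        rw [hq, hf_add_right, hf_smul_right, hf_smul_right, f1, hB.yx]; ring
      have hqy0 : hf σ J q y₀ = α := by
        rw [hq, hf_add_left, hf_smul_left, hf_smul_left, hB.h0, f5]; ring
      have hb := h1 (hG.el q 0 (ε * ((y : k) * c₀))) y₀ y₀ m (by
          rw [hact, hx1q, hf_zero_right]; module) hB.y00 hB.yx hB.ny0 hB.y00 hB.yx hB.ny0 (by
          have e1 : hf σ J (y₀ ᵥ* (hG.el q 0 (ε * ((y : k) * c₀))).1.1) y₀ =
              ε * (ε * ((y : k) * c₀)) * (σ α * ε) * α := by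
            rw [hact, hy0q, hf_zero_right, smul_zero, add_zero, mul_zero, zero_smul, sub_zero,
              hf_add_left, hf_smul_left, hB.y00, hqy0, zero_add]
          rw [e1, norm_mul, norm_mul, norm_mul, norm_mul, norm_mul, norm_mul, hen, hσn, hN]
          refine hm.trans (le_of_eq ?_)
          ring)
      refine hb.trans ?_
      have : (0 : ℝ) ≤ (3 / 4) ^ m := by positivity
      nlinarith
    · -- `‖β‖ = N`: the point `x₀`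
      have hy1q : hf σ J y₁ q = σ β * ε := by
        rw [hq, hf_add_right, hf_smul_right, hf_smul_right, f2, f4]; ring
      have hqy1 : hf σ J q y₁ = β := by
        rw [hq, hf_add_left, hf_smul_left, hf_smul_left, hB.h1, hB.xy]; ring
      have hb := h0 (hG.el q 0 (ε * ((y : k) * c₀))) y₁ y₁ m (by
          rw [hact, hx0q, hf_zero_right]; module) hB.y11 f4 hB.ny1 hB.y11 f4 hB.ny1 (by
          have e1 : hf σ J (y₁ ᵥ* (hG.el q 0 (ε * ((y : k) * c₀))).1.1) y₁ =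
              ε * (ε * ((y : k) * c₀)) * (σ β * ε) * β := by
            rw [hact, hy1q, hf_zero_right, smul_zero, add_zero, mul_zero, zero_smul, sub_zero,
              hf_add_left, hf_smul_left, hB.y11, hqy1, zero_add]
          rw [e1, norm_mul, norm_mul, norm_mul, norm_mul, norm_mul, norm_mul, hen, hσn, hN]
          refine hm.trans (le_of_eq ?_)
          ring)
      refine hb.trans ?_
      have : (0 : ℝ) ≤ (3 / 4) ^ m := by positivity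
      nlinarith
  obtain ⟨K2, hK2⟩ : ∃ K2, K2 = ‖ξ‖ * Real.sqrt (‖ξ‖ ^ 2 + (K0 + K1)) + (M * ‖c₀‖) * ‖ξ‖ :=
    ⟨_, rfl⟩
  refine ⟨‖c₀‖ / 2, by positivity, K2, fun g A hg l hl => ?_⟩
  obtain ⟨g1, g2, g3⟩ := hg
  have hnh := half_le_nrm A
  have hΓ : (‖cF‖ ^ 4) ^ l ≤ ‖c₀‖ * nrm A ^ 2 := by
    rw [hcFn]
    refine hl.trans ?_
    have : nrm A * (1 / 2) ≤ nrm A * nrm A := mul_le_mul_of_nonneg_left hnh (by linarith)
    nlinarith
  have main : ∀ (e : n → k) (α β : k), hf σ J e e = 0 → ‖e‖ ≤ 1 →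
      e ᵥ* g.1.1 = α • x₀ + β • x₁ → (‖α‖ = nrm A ∨ ‖β‖ = nrm A) →
      ‖⟪ρ g ξ, ξ⟫_ℂ‖ ≤ K2 * (3 / 4) ^ l := by
    intro e α β he he1 heg hN
    rw [hK2]
    refine push' (k' := F) (c := cF) hcF4 hρ g (U := fun y => hG.el e 0 (ε * ((y : k) * c₀)))
      (fun y y' => ?_) ?_ (by positivity) (fun y => ?_) (by positivity) (fun m y hm => ?_) l hΓ
    · refine (hG.law (hE e y' he) (hE e (y - y') he) (add_zero _).symm ?_).symm
      rw [hf_zero_left]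
      push_cast
      ring
    · beta_reduce
      have e0 : ((0 : F) : k) = 0 := rfl
      rw [e0, zero_mul, mul_zero, hG.zero he]
    · refine (hM e 0 _ he1).trans (le_of_eq ?_)
      have hyn : ‖y‖ = ‖(y : k)‖ := rfl
      rw [norm_zero, zero_add, norm_mul, norm_mul, hen, hyn]
      ring
    · beta_reduce
      rw [hG.conj' g (hE e y he), zero_vecMul]
      exact key α β _ y m (nrm A) heg hN hm
  rcases nrm_cases A with h | h | h | h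
  · exact main x₀ _ _ hB.x00 hB.nx0 g1 (Or.inl h.symm)
  · exact main x₁ _ _ hB.x11 hB.nx1 g2 (Or.inl h.symm)
  · exact main x₀ _ _ hB.x00 hB.nx0 g1 (Or.inr h.symm)
  · exact main x₁ _ _ hB.x11 hB.nx1 g2 (Or.inr h.symm)

/-! ### The wall of the points, unitary and symplectic groups -/

/-- `g` fixes `x₀` and acts by the matrix `A` over the fixed field on `⟨x₁, c₀ y₁⟩` -/
def R1 (σ : k →+* k) (c₀ : k) (x₀ x₁ y₁ : n → k) (g : G) (A : SpecialLinearGroup (Fin 2) k) :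
    Prop :=
  x₀ ᵥ* g.1.1 = x₀ ∧ x₁ ᵥ* g.1.1 = A.1 0 0 • x₁ + (A.1 0 1 * c₀) • y₁ ∧
    y₁ ᵥ* g.1.1 = (A.1 1 0 * c₀⁻¹) • x₁ + A.1 1 1 • y₁

theorem w1_ep {a : n → k} (ha : hf σ J a a = 0) {z : k} (hz : z + ε * σ z = 0) :
    EP σ ε J a 0 z :=
  ⟨ha, hf_zero_left _ _ _, by rw [hf_zero_left, hz, add_zero]⟩

theorem w1_act {a : n → k} (ha : hf σ J a a = 0) {z : k} (hz : z + ε * σ z = 0) (x : n → k) :
    x ᵥ* (hG.el a 0 z).1.1 = x + (ε * z * hf σ J x a) • a := by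
  rw [hG.act (w1_ep ha hz), hf_zero_right]
  module

theorem w1_inv {a : n → k} (ha : hf σ J a a = 0) {z : k} (hz : z + ε * σ z = 0) :
    (hG.el a 0 z)⁻¹ = hG.el a 0 (-z) := by
  have hz' : -z + ε * σ (-z) = 0 := by rw [map_neg]; linear_combination -hz
  rw [inv_eq_iff_mul_eq_one, hG.law (w1_ep ha hz) (w1_ep ha hz') (v'' := 0) (c'' := 0),
    hG.zero ha]
  · rw [add_zero]
  · rw [hf_zero_left]; ring

theorem cc_t {c₀ t : k} (hG : GH σ ε J G) (hcc : c₀ + ε * σ c₀ = 0) (ht : σ t = t) :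
    ε * (t * c₀) + ε * σ (ε * (t * c₀)) = 0 := by
  rw [map_mul, map_mul, hG.fm.seps, ht]
  linear_combination (ε * t) * hcc

theorem cc_t' {c₀ t : k} (hG : GH σ ε J G) (hc0 : c₀ ≠ 0) (hcc : c₀ + ε * σ c₀ = 0)
    (ht : σ t = t) : t * c₀⁻¹ + ε * σ (t * c₀⁻¹) = 0 := by
  have hs0 : σ c₀ ≠ 0 := by rwa [Ne, map_eq_zero]
  have he := hG.fm.eps
  rw [map_mul, map_inv₀, ht]
  field_simp
  linear_combination (ε * t) * hcc + (-(t * σ c₀)) * he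

include hB in
theorem r1_up {c₀ t : k} (hc0 : c₀ ≠ 0) (hcc : c₀ + ε * σ c₀ = 0) (ht : σ t = t) (g : G)
    (A : SpecialLinearGroup (Fin 2) k) (h : R1 σ c₀ x₀ x₁ y₁ g A) :
    R1 σ c₀ x₀ x₁ y₁ (hG.el y₁ 0 (ε * (t * c₀)) * g) (up t * A) := by
  obtain ⟨h1, h2, h3⟩ := h
  obtain ⟨u1, u2, u3, u4⟩ := up_mul t A
  have he : ε * (ε * (t * c₀)) = t * c₀ := by
    linear_combination (t * c₀) * hG.fm.eps
  refine ⟨?_, ?_, ?_⟩
  · rw [vm_mul, w1_act hG hB.y11 (cc_t hG hcc ht), hB.xy, mul_zero, zero_smul, add_zero, h1]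
  · rw [vm_mul, w1_act hG hB.y11 (cc_t hG hcc ht), hB.h1, he, mul_one, add_vecMul,
      smul_vecMul, h2, h3, u1, u2]
    have e1 : t * c₀ * (A.1 1 0 * c₀⁻¹) = t * A.1 1 0 := by field_simp
    rw [smul_add, smul_smul, smul_smul, e1]
    module
  · rw [vm_mul, w1_act hG hB.y11 (cc_t hG hcc ht), hB.y11, mul_zero, zero_smul, add_zero, h3,
      u3, u4]

include hB in
theorem r1_lo {c₀ t : k} (hc0 : c₀ ≠ 0) (hcc : c₀ + ε * σ c₀ = 0) (ht : σ t = t) (g : G)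
    (A : SpecialLinearGroup (Fin 2) k) (h : R1 σ c₀ x₀ x₁ y₁ g A) :
    R1 σ c₀ x₀ x₁ y₁ (hG.el x₁ 0 (t * c₀⁻¹) * g) (lo t * A) := by
  obtain ⟨h1, h2, h3⟩ := h
  obtain ⟨u1, u2, u3, u4⟩ := lo_mul t A
  obtain ⟨f1, f2, f3, f4, f5, f6⟩ := hB.fx hG.fm
  have hz := cc_t' hG hc0 hcc ht
  have he : ε * (t * c₀⁻¹) * ε = t * c₀⁻¹ := by
    linear_combination (t * c₀⁻¹) * hG.fm.eps
  refine ⟨?_, ?_, ?_⟩
  · rw [vm_mul, w1_act hG hB.x11 hz, hB.xx, mul_zero, zero_smul, add_zero, h1]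
  · rw [vm_mul, w1_act hG hB.x11 hz, hB.x11, mul_zero, zero_smul, add_zero, h2, u1, u2]
  · rw [vm_mul, w1_act hG hB.x11 hz, f2, he, add_vecMul, smul_vecMul, h2, h3, u3, u4]
    have e1 : t * c₀⁻¹ * (A.1 0 1 * c₀) = t * A.1 0 1 := by field_simp
    rw [smul_add, smul_smul, smul_smul, e1]
    module

/-- the eight shears of the wall of the points -/
noncomputable def W1 (ε c₀ : k) (x₁ y₁ : n → k) (hG : GH σ ε J G) (c : k) : Fin 8 → G :=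
  mkW (fun t => hG.el y₁ 0 (ε * (t * c₀))) (fun t => hG.el x₁ 0 (t * c₀⁻¹)) c

/-- **Decay for the wall of the points**, unitary and symplectic groups -/
theorem dec1U {B : ℝ} {c₀ : k} (hc0 : c₀ ≠ 0) {ξ : 𝓗}
    (hB : HB σ J x₀ y₀ x₁ y₁) (h0 : Lv1 hG ρ ξ B x₀) (hB1 : 1 ≤ B) :
    Dec8 (R1 σ c₀ x₀ x₁ y₁) ρ B ξ := by
  obtain ⟨K0, hK0, h0⟩ := h0
  have hc0n : 0 < ‖c₀‖ := norm_pos_iff.2 hc0
  have hen := norm_eps hG.fm.eps
  obtain ⟨f1, f2, f3, f4, f5, f6⟩ := hB.fx hG.fm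
  obtain ⟨κ, hκ⟩ : ∃ κ, κ = min 1 (min ‖c₀‖ ‖c₀‖⁻¹) := ⟨_, rfl⟩
  have hκ0 : 0 < κ := by rw [hκ]; exact lt_min one_pos (lt_min hc0n (inv_pos.2 hc0n))
  have k1 : κ ≤ 1 := by rw [hκ]; exact min_le_left _ _
  have k2 : κ ≤ ‖c₀‖ := by rw [hκ]; exact (min_le_right _ _).trans (min_le_left _ _)
  have k3 : κ ≤ ‖c₀‖⁻¹ := by rw [hκ]; exact (min_le_right _ _).trans (min_le_right _ _)
  refine ⟨κ, hκ0, K0, fun g A hg l hl => ?_⟩
  obtain ⟨g1, g2, g3⟩ := hg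
  have hn0 : 0 ≤ nrm A := le_trans (by norm_num) (half_le_nrm A)
  rcases nrm_cases A with h | h | h | h
  · refine h0 g x₁ y₁ l g1 hB.x11 f3 hB.nx1 hB.y11 f4 hB.ny1 (hl.trans ?_)
    rw [g2, hf_add_left, hf_smul_left, hf_smul_left, hB.h1, hB.y11, mul_one, mul_zero, add_zero,
      h]
    rw [h] at hn0
    nlinarith
  · refine h0 g y₁ y₁ l g1 hB.y11 f4 hB.ny1 hB.y11 f4 hB.ny1 (hl.trans ?_)
    rw [g3, hf_add_left, hf_smul_left, hf_smul_left, hB.h1, hB.y11, mul_one, mul_zero, add_zero,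
      h, norm_mul, norm_inv]
    rw [h] at hn0
    nlinarith
  · refine h0 g x₁ x₁ l g1 hB.x11 f3 hB.nx1 hB.x11 f3 hB.nx1 (hl.trans ?_)
    rw [g2, hf_add_left, hf_smul_left, hf_smul_left, hB.x11, f2, mul_zero, zero_add, norm_mul,
      norm_mul, hen, mul_one, h]
    rw [h] at hn0
    nlinarith
  · refine h0 g y₁ x₁ l g1 hB.y11 f4 hB.ny1 hB.x11 f3 hB.nx1 (hl.trans ?_)
    rw [g3, hf_add_left, hf_smul_left, hf_smul_left, hB.x11, f2, mul_zero, zero_add, norm_mul,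
      hen, mul_one, h]
    rw [h] at hn0
    nlinarith

end pairs

end Vale.Agent.P092.H780
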