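import Vale.Agent.P092.H780.Gap4

/-!
P092 (helper780), Team P, block [CL-GAP], part 5: **the spectral gap of the Levi subgroups of both
walls**, vector form: unitary and symplectic groups (`ε σ(s) ≠ s` for some `s`: every characteristic
if `σ ≠ id`), any Witt index `r ≥ 2`.
-/

set_option linter.all false

namespace Vale.Agent.P092.H780

open Filter Topology Matrix
open Vale.Agent.P092.H303 (FormGroup)
open Vale.Agent.P092.H714.Cl
open Vale.Agent.P092.H714.Sg (Fm)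
open Vale.Agent.P092.H370.Fo (EP ei vecMul_ei)
open Vale.Agent.P092.H15 (HMG)
open Vale.Agent.P092.H933 (URep LeviGap fixedSub)
open Vale.Agent.P092.H956 (pn pn_nonneg pn_mul Lips dense_lips nrm up lo leviGap_of)

open scoped InnerProductSpace

section fin

/-- the gap for an element commuting with eight elements whose average contracts -/
theorem leviGap8 {E : Type} [Group E] [TopologicalSpace E] {a : E} {W : Fin 8 → E}
    (hW : ∀ i, Commute (W i) a)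
    (h : ∀ (𝓗 : Type) [NormedAddCommGroup 𝓗] [InnerProductSpace ℂ 𝓗] [CompleteSpace 𝓗]
      (ρ : E →* (𝓗 →L[ℂ] 𝓗)), URep ρ → ∀ v : 𝓗, (∀ η ∈ fixedSub ρ, ⟪η, v⟫_ℂ = 0) →
        ‖avg8 W ρ v‖ ≤ (99 / 100) * ‖v‖) : LeviGap a := by
  refine leviGap_of (ι₀ := Fin 8) (w₀ := W) hW (q := 99 / 100) (by norm_num) (by norm_num) ?_
  intro 𝓗 _ _ _ ρ hρ v hv
  have h1 := h 𝓗 ρ hρ v hv
  rw [avg8_apply] at h1
  rw [← Complex.coe_smul]
  simpa using h1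

end fin

section fin

variable {n : Type} [Fintype n] [DecidableEq n] {k : Type} [NontriviallyNormedField k]
  {σ : k →+* k} {ε : k} {J : Matrix n n k} {x₀ y₀ x₁ y₁ v₀ : n → k}
  {G : Subgroup (SpecialLinearGroup n k)}

theorem cont_hf (x y : n → k) : Continuous fun g : G => hf σ J (x ᵥ* g.1.1) y := by
  unfold hf
  have h1 : Continuous fun g : G => g.1.1 := continuous_subtype_val.comp continuous_subtype_val
  exact (continuous_const.matrix_vecMul h1).dotProduct continuous_const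

/-- a large element of the fixed field -/
theorem exists_big (hinv : ∀ x, σ (σ x) = x) (hσn : ∀ x, ‖σ x‖ = ‖x‖) :
    ∃ c : k, 4 ≤ ‖c‖ ∧ σ c = c := by
  obtain ⟨c', hc'⟩ := NormedField.exists_lt_norm k 4
  refine ⟨c' * σ c', ?_, ?_⟩
  · rw [norm_mul, hσn]; nlinarith
  · rw [map_mul, hinv, mul_comm]

theorem moore_pt [ProperSpace k] (hG : GH σ ε J G) (hm : HMG G) (hσn : ∀ x, ‖σ x‖ = ‖x‖)
    {x y : n → k} (hx : hf σ J x x = 0) (hy : hf σ J y y = 0) (hxy : hf σ J x y = 1) {s₀ : k}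
    (hs₀ : ε * σ s₀ - s₀ ≠ 0) : RC.Moore {z : G | ∃ s, z = hG.el x 0 (ε * σ s - s)} := by
  obtain ⟨c, hc, hcσ⟩ := exists_big hG.fm.inv hσn
  have hyx : hf σ J y x = ε := by rw [hG.fm.herm, hxy, map_one, mul_one]
  refine H714.Sp.moore_of_tendsto hm (l := atTop)
    (b := fun j : ℕ => hG.el x 0 (ε * σ (c ^ j * s₀) - c ^ j * s₀))
    (H714.Sp.tendsto_cocompact_of (f := fun g : G => ‖hf σ J (y ᵥ* g.1.1) y‖)
      (cont_hf y y).norm ?_) (Eventually.of_forall fun j => ⟨_, rfl⟩)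
  have e : (fun j : ℕ => ‖hf σ J (y ᵥ* (hG.el x 0 (ε * σ (c ^ j * s₀) - c ^ j * s₀)).1.1) y‖) =
      fun j => ‖c‖ ^ j * ‖ε * σ s₀ - s₀‖ := by
    funext j
    rw [hG.act (ep_z hG.fm hx _), hf_zero_right, smul_zero, add_zero, mul_zero, zero_smul,
      sub_zero, hf_add_left, hf_smul_left, hy, hyx, hxy, ← norm_pow, ← norm_mul, map_mul, map_pow,
      hcσ, zero_add]
    congr 1
    linear_combination (c ^ j * (ε * σ s₀ - s₀)) * hG.fm.eps
  rw [e]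
  exact (tendsto_pow_atTop_atTop_of_one_lt (by linarith)).atTop_mul_const (norm_pos_iff.2 hs₀)

theorem inv_pt (hG : GH σ ε J G) {x : n → k} (hx : hf σ J x x = 0) (z : G)
    (hz : z ∈ {z : G | ∃ s, z = hG.el x 0 (ε * σ s - s)}) :
    z⁻¹ ∈ {z : G | ∃ s, z = hG.el x 0 (ε * σ s - s)} := by
  obtain ⟨s, rfl⟩ := hz
  refine ⟨-s, ?_⟩
  have h := (ep_z hG.fm hx s).vv
  rw [hf_zero_left, add_zero] at h
  rw [w1_inv hG hx h, map_neg]
  congr 1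
  ring

/-- the two long root groups commute -/
theorem comm_pt (hG : GH σ ε J G) {x x' : n → k} (hx : hf σ J x x = 0) (hx' : hf σ J x' x' = 0)
    (hxx : hf σ J x x' = 0) (s s' : k) :
    hG.el x 0 (ε * σ s - s) * hG.el x' 0 (ε * σ s' - s') =
      hG.el x' 0 (ε * σ s' - s') * hG.el x 0 (ε * σ s - s) := by
  rw [hG.conj _ (ep_z hG.fm hx s), zero_vecMul, hG.act (ep_z hG.fm hx' s'), hxx, hf_zero_right]
  congr 2
  module

variable [ProperSpace k]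

/-- **[CL-GAP], wall of the points**, unitary and symplectic groups, every characteristic. -/
theorem levi1U (hG : GH σ ε J G) (hGc : IsClosed (G : Set (SpecialLinearGroup n k)))
    (hm : HMG G) (hσn : ∀ x, ‖σ x‖ = ‖x‖) (hB : HB σ J x₀ y₀ x₁ y₁) {s₀ : k}
    (hs₀ : ε * σ s₀ - s₀ ≠ 0) {a : G} (ha1 : x₁ ᵥ* a.1.1 = x₁) (ha2 : y₁ ᵥ* a.1.1 = y₁) :
    LeviGap a := by
  obtain ⟨c, hc, hcσ⟩ := exists_big hG.fm.inv hσn
  obtain ⟨c₀, hc₀⟩ : ∃ c₀, c₀ = ε * σ s₀ - s₀ := ⟨_, rfl⟩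
  have hc0 : c₀ ≠ 0 := by rw [hc₀]; exact hs₀
  have hcc : c₀ + ε * σ c₀ = 0 := by
    have h := (ep_z hG.fm hB.x00 s₀).vv
    rw [hf_zero_left, add_zero, ← hc₀] at h
    exact h
  have hfix : σ (c ^ 4) = c ^ 4 := by rw [map_pow, hcσ]
  have hpar : Par (fun t : k => σ t = t) (c ^ 4) :=
    ⟨by rw [map_pow, hfix], by rw [map_neg, map_pow, hfix], by rw [map_pow, hfix],
      by rw [map_neg, map_pow, hfix]⟩
  have hc4 : 4 ≤ ‖c ^ 4‖ := by
    rw [norm_pow]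
    calc (4 : ℝ) ≤ 4 ^ 4 := by norm_num
      _ ≤ ‖c‖ ^ 4 := pow_le_pow_left₀ (by norm_num) hc 4
  refine leviGap8 (W := W1 ε c₀ x₁ y₁ hG (c ^ 4)) ?_ ?_
  · refine mkW_all hpar (Q := fun g => Commute g a) (fun t ht => ?_) (fun t ht => ?_)
    · show _ * _ = _ * _
      rw [hG.conj a (w1_ep hB.y11 (cc_t hG hcc ht)), zero_vecMul, ha2]
    · show _ * _ = _ * _
      rw [hG.conj a (w1_ep hB.x11 (cc_t' hG hc0 hcc ht)), zero_vecMul, ha1]
  · intro 𝓗 _ _ _ ρ hρ v hv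
    refine gap8 hρ (mkW_inv hpar (fun t ht => ?_) (fun t ht => ?_)) hc4
      (P := R1 σ c₀ x₀ x₁ y₁) ?_ (fun i g A => mkW_P hpar
        (fun t ht g A h => r1_up hG hB hc0 hcc ht g A h)
        (fun t ht g A h => r1_lo hG hB hc0 hcc ht g A h) i g A)
      (D := Good2 {z : G | ∃ s, z = hG.el x₀ 0 (ε * σ s - s)}
        {z : G | ∃ s, z = hG.el x₁ 0 (ε * σ s - s)} ρ) ?_
      (total2 hGc hρ (moore_pt hG hm hσn hB.x00 hB.y00 hB.h0 hs₀)
        (moore_pt hG hm hσn hB.x11 hB.y11 hB.h1 hs₀) (inv_pt hG hB.x00) (inv_pt hG hB.x11) hv)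
    · rw [w1_inv hG hB.y11 (cc_t hG hcc ht)]
      congr 1
      ring
    · rw [w1_inv hG hB.x11 (cc_t' hG hc0 hcc ht)]
      congr 1
      ring
    · refine ⟨vm_one _, ?_, ?_⟩ <;> rw [vm_one] <;> simp
    · rintro ξ ⟨z1, ⟨s, rfl⟩, z2, ⟨s', rfl⟩, ζ, hζ, rfl⟩
      obtain ⟨M, hM⟩ := slow_of hG hσn (lips_act hρ (lips_act hρ hζ (hG.el x₁ 0 (ε * σ s' - s')))
        (hG.el x₀ 0 (ε * σ s - s)))
      rw [norm_pow]
      exact dec1U hG hc0 hB (lv1 hG hρ hσn hc hB.x00 hB.nx0 rfl hM) (one_le_pow₀ (by linarith))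

/-- **[CL-GAP], wall of the maximal spaces**, unitary and symplectic groups, every
characteristic. -/
theorem levi2U (hG : GH σ ε J G) (hGc : IsClosed (G : Set (SpecialLinearGroup n k)))
    (hm : HMG G) (hσn : ∀ x, ‖σ x‖ = ‖x‖) (hB : HB σ J x₀ y₀ x₁ y₁) {s₀ : k}
    (hs₀ : ε * σ s₀ - s₀ ≠ 0) {a : G} {w : k} (hw : w ≠ 0) (hwσ : σ w = w)
    (ha1 : x₀ ᵥ* a.1.1 = w • x₀) (ha2 : x₁ ᵥ* a.1.1 = w • x₁) (ha3 : y₀ ᵥ* a.1.1 = w⁻¹ • y₀)
    (ha4 : y₁ ᵥ* a.1.1 = w⁻¹ • y₁) : LeviGap a := by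
  obtain ⟨c, hc, hcσ⟩ := exists_big hG.fm.inv hσn
  obtain ⟨c₀, hc₀⟩ : ∃ c₀, c₀ = ε * σ s₀ - s₀ := ⟨_, rfl⟩
  have hc0 : c₀ ≠ 0 := by rw [hc₀]; exact hs₀
  have hcc : c₀ + ε * σ c₀ = 0 := by
    have h := (ep_z hG.fm hB.x00 s₀).vv
    rw [hf_zero_left, add_zero, ← hc₀] at h
    exact h
  have hpar : Par (fun _ : k => True) ((c ^ 4) ^ 4) := ⟨trivial, trivial, trivial, trivial⟩
  have hc4 : 4 ≤ ‖(c ^ 4) ^ 4‖ := by
    rw [norm_pow, norm_pow, ← pow_mul]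
    calc (4 : ℝ) ≤ 4 ^ (4 * 4) := by norm_num
      _ ≤ ‖c‖ ^ (4 * 4) := pow_le_pow_left₀ (by norm_num) hc _
  obtain ⟨f1, f2, f3, f4, f5, f6⟩ := hB.fx hG.fm
  have hcomm : ∀ (u v : n → k) (t : k), hf σ J u u = 0 → hf σ J v v = 0 → hf σ J v u = 0 →
      u ᵥ* a.1.1 = w • u → v ᵥ* a.1.1 = w⁻¹ • v → Commute (hG.el u (-(ε * σ t) • v) 0) a := by
    intro u v t hu hv hvu hua hva
    show _ * _ = _ * _
    have h1 := w2_ep hG hu hv hvu (-(ε * σ t))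
    rw [hG.conj a h1]
    congr 1
    have h3 := ep_act (hG.le a.2) h1
    rw [hua, smul_vecMul, hva, smul_comm] at h3
    rw [hua, smul_vecMul, hva, smul_comm]
    refine Subtype.ext ?_
    rw [hG.val h3, hG.val h1]
    refine ext_vecMul fun x => ?_
    rw [vecMul_ei hG.fm h3, vecMul_ei hG.fm h1]
    simp only [hf_smul_right, map_inv₀, hwσ, smul_smul, mul_zero, zero_mul, zero_smul, add_zero]
    have b1 : w * hf σ J x u * (w⁻¹ * -(ε * σ t)) = hf σ J x u * -(ε * σ t) := by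
      field_simp
    have b2 : ε * (σ (w⁻¹ * -(ε * σ t)) * hf σ J x v) * w =
        ε * (σ (-(ε * σ t)) * hf σ J x v) := by
      rw [map_mul, map_inv₀, hwσ]
      field_simp
    rw [b1, b2]
  refine leviGap8 (W := W2 hG x₀ y₀ x₁ y₁ ((c ^ 4) ^ 4)) ?_ ?_
  · refine mkW_all hpar (Q := fun g => Commute g a) (fun t _ => ?_) (fun t _ => ?_)
    · exact hcomm x₁ y₀ t hB.x11 hB.y00 hB.yx ha2 ha3
    · exact hcomm x₀ y₁ t hB.x00 hB.y11 f4 ha1 ha4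
  · intro 𝓗 _ _ _ ρ hρ v hv
    refine gap8 hρ (mkW_inv hpar (fun t _ => w2_inv hG hB.x11 hB.y00 hB.yx t)
      (fun t _ => w2_inv hG hB.x00 hB.y11 f4 t)) hc4
      (P := R2 x₀ x₁ 0) ?_ (fun i g A => mkW_P hpar
        (fun t _ g A h => r2_up hG hB (hf_zero_left _ _ _) (hf_zero_left _ _ _) t g A h)
        (fun t _ g A h => r2_lo hG hB (hf_zero_left _ _ _) (hf_zero_left _ _ _) t g A h) i g A)
      (D := Good2 {z : G | ∃ s, z = hG.el x₀ 0 (ε * σ s - s)}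
        {z : G | ∃ s, z = hG.el x₁ 0 (ε * σ s - s)} ρ) ?_
      (total2 hGc hρ (moore_pt hG hm hσn hB.x00 hB.y00 hB.h0 hs₀)
        (moore_pt hG hm hσn hB.x11 hB.y11 hB.h1 hs₀) (inv_pt hG hB.x00) (inv_pt hG hB.x11) hv)
    · refine ⟨?_, ?_, ?_⟩ <;> rw [vm_one] <;> simp
    · rintro ξ ⟨z1, ⟨s, rfl⟩, z2, ⟨s', rfl⟩, ζ, hζ, rfl⟩
      obtain ⟨M, hM⟩ := slow_of hG hσn (lips_act hρ (lips_act hρ hζ (hG.el x₁ 0 (ε * σ s' - s')))
        (hG.el x₀ 0 (ε * σ s - s)))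
      rw [norm_pow, norm_pow]
      refine dec2U hG hρ hσn hc hcσ hc0 hcc hB (lv1 hG hρ hσn hc hB.x00 hB.nx0 rfl hM)
        (lv1 hG hρ hσn hc hB.x11 hB.nx1 (s₀ := s')
          (ζ := ρ (hG.el x₀ 0 (ε * σ s - s)) ζ - ζ) ?_ hM) hM
      rw [map_sub, map_sub, ← URep.mul_apply, ← URep.mul_apply,
        comm_pt hG hB.x00 hB.x11 hB.xx s s']
      abel

end fin

end Vale.Agent.P092.H780
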